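import Vale.Agent.P100.Weighted.Fields

/-!
# P100: `pq ≤ 1`, and weights at most `-2`

Comparison with radial functions. With `U`, `V` the minima of `u`, `v` on the sphere of radius
`R`, a barrier on balls gives `U ≥ c R^(2+σ) V^p` and `V ≥ c R^(2+τ) U^q`, while `U` is at most
`u` at a fixed point. A weight at most `-2` forces a logarithmic singularity at the origin.
-/

namespace Vale.Agent.P100.Weighted

open Set Filter Topology
open Vale.Agent.P252 (pd)

variable {n : ℕ} {σ τ p q : ℝ} {u v : (Fin n → ℝ) → ℝ}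

theorem deriv2_nonneg {f : ℝ → ℝ} {a : ℝ} (hm : IsLocalMin f a) (hc : ContinuousAt f a) :
    0 ≤ deriv (deriv f) a := by
  by_contra h
  have hM := isLocalMax_of_deriv_deriv_neg (not_le.1 h) hm.deriv_eq_zero hc
  have he : f =ᶠ[𝓝 a] fun _ => f a := by
    filter_upwards [hm, hM] with x h1 h2 using le_antisymm h2 h1
  have : deriv (deriv f) a = 0 := by rw [he.deriv.deriv_eq]; simp
  linarith

theorem lap_nonneg_of_isLocalMin {U : Set (Fin n → ℝ)} (hU : IsOpen U) {f : (Fin n → ℝ) → ℝ}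
    (hf : ContDiffOn ℝ 2 f U) {x : Fin n → ℝ} (hx : x ∈ U) (hm : IsLocalMin f x) :
    0 ≤ lap f x := by
  refine Finset.sum_nonneg fun i _ => ?_
  set e : Fin n → ℝ := Pi.single i 1 with he
  set γ : ℝ → (Fin n → ℝ) := fun t => x + t • e with hγdef
  have hγ : Continuous γ := by fun_prop
  have hγ0 : γ 0 = x := by simp [hγdef]
  have hd : ∀ t, HasDerivAt γ e t := fun t => by
    simpa [hγdef] using ((hasDerivAt_id t).smul_const e).const_add x
  have hev : ∀ᶠ t in 𝓝 (0 : ℝ), γ t ∈ U :=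
    hγ.continuousAt.eventually_mem (by rw [hγ0]; exact hU.mem_nhds hx)
  have h1 : deriv (f ∘ γ) =ᶠ[𝓝 0] fun t => pd i f (γ t) := by
    filter_upwards [hev] with t ht
    exact (((hf.contDiffAt (hU.mem_nhds ht)).differentiableAt
      two_ne_zero).hasFDerivAt.comp_hasDerivAt t (hd t)).deriv
  have h2 : deriv (deriv (f ∘ γ)) 0 = pd i (pd i f) x := by
    rw [h1.deriv_eq]
    have := (((contDiffOn_pd hU hf i).contDiffAt (hU.mem_nhds hx)).differentiableAt
      one_ne_zero).hasFDerivAt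
    rw [← hγ0] at this
    simpa [hγ0, pd, ← he, Function.comp_def] using (this.comp_hasDerivAt 0 (hd 0)).deriv
  rw [← h2]
  rw [← hγ0] at hm
  exact deriv2_nonneg (hm.comp_continuous hγ.continuousAt)
    (((hf.continuousOn.continuousAt (hU.mem_nhds hx)).congr_of_eventuallyEq
      EventuallyEq.rfl |> fun h => (hγ0.symm ▸ h : ContinuousAt f (γ 0))).comp hγ.continuousAt)

theorem lap_add {U : Set (Fin n → ℝ)} (hU : IsOpen U) {f g : (Fin n → ℝ) → ℝ}
    (hf : ContDiffOn ℝ 2 f U) (hg : ContDiffOn ℝ 2 g U) {x : Fin n → ℝ} (hx : x ∈ U) :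
    lap (fun y => f y + g y) x = lap f x + lap g x := by
  rw [lap, lap, lap, ← Finset.sum_add_distrib]
  refine Finset.sum_congr rfl fun i _ => ?_
  have hadd : ∀ {f g : (Fin n → ℝ) → ℝ} {y : Fin n → ℝ}, DifferentiableAt ℝ f y →
      DifferentiableAt ℝ g y → pd i (fun z => f z + g z) y = pd i f y + pd i g y :=
    fun h1 h2 => by simp [pd, fderiv_fun_add h1 h2]
  have e : pd i (fun y => f y + g y) =ᶠ[𝓝 x] fun y => pd i f y + pd i g y := by
    filter_upwards [hU.mem_nhds hx] with y hy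
    exact hadd ((hf.contDiffAt (hU.mem_nhds hy)).differentiableAt two_ne_zero)
      ((hg.contDiffAt (hU.mem_nhds hy)).differentiableAt two_ne_zero)
  rw [pd_congr_at e, hadd (((contDiffOn_pd hU hf i).contDiffAt (hU.mem_nhds hx)).differentiableAt
    one_ne_zero) (((contDiffOn_pd hU hg i).contDiffAt (hU.mem_nhds hx)).differentiableAt one_ne_zero)]

theorem min_principle {K U : Set (Fin n → ℝ)} (hK : IsCompact K) (hU : IsOpen U) (hUK : U ⊆ K)
    {f : (Fin n → ℝ) → ℝ} (hc : ContinuousOn f K) (hf : ContDiffOn ℝ 2 f U)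
    (hlap : ∀ x ∈ U, lap f x < 0) (hb : ∀ x ∈ K, x ∉ U → 0 ≤ f x) {x : Fin n → ℝ} (hx : x ∈ K) :
    0 ≤ f x := by
  obtain ⟨y, hy, hmin⟩ := hK.exists_isMinOn ⟨x, hx⟩ hc
  refine le_trans ?_ (hmin hx)
  by_cases hyU : y ∈ U
  · exact absurd (hlap y hyU) (not_lt.2 (lap_nonneg_of_isLocalMin hU hf hyU
      (hmin.isLocalMin (mem_of_superset (hU.mem_nhds hyU) hUK))))
  · exact hb y hy hyU

theorem contDiff_sqn' (x₀ : Fin n → ℝ) (m : WithTop ℕ∞) :
    ContDiff ℝ m fun y : Fin n → ℝ => sqn (y - x₀) := by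
  unfold sqn
  fun_prop

theorem isCompact_ball_sqn (x₀ : Fin n → ℝ) (b : ℝ) : IsCompact {y | sqn (y - x₀) ≤ b} := by
  refine (isCompact_Icc (a := fun i => x₀ i - Real.sqrt b) (b := fun i => x₀ i + Real.sqrt b)
    ).of_isClosed_subset (isClosed_le (contDiff_sqn' x₀ 1).continuous continuous_const) fun y hy => ?_
  have hy' : sqn (y - x₀) ≤ b := hy
  have hb0 : 0 ≤ b := (sqn_nonneg _).trans hy'
  have h := fun i => abs_le.1 (abs_le_of_sqn_le (Real.sqrt_nonneg b)
    (by rw [Real.sq_sqrt hb0]; exact hy') i)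
  exact ⟨fun i => by have := (h i).1; simp at this; linarith,
    fun i => by have := (h i).2; simp at this; linarith⟩

/-- The minimum principle on an annulus. -/
theorem annulus_principle {f : (Fin n → ℝ) → ℝ} (hf : ContDiffOn ℝ 2 f (punctured n))
    (hlap : ∀ x ∈ punctured n, lap f x < 0) {a b : ℝ} (ha : 0 < a)
    (hb : ∀ x, sqn x = a ∨ sqn x = b → 0 ≤ f x) {x : Fin n → ℝ} (hax : a ≤ sqn x)
    (hxb : sqn x ≤ b) : 0 ≤ f x := by
  have hc : Continuous (sqn (n := n)) := contDiff_sqn.continuous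
  have hsub : ∀ y : Fin n → ℝ, a ≤ sqn y → y ∈ punctured n := fun y hy h0 => by
    rw [Set.mem_singleton_iff.1 h0] at hy
    simp [sqn] at hy
    linarith
  refine min_principle (K := {y | a ≤ sqn y} ∩ {y | sqn (y - 0) ≤ b})
    (U := {y | a < sqn y} ∩ {y | sqn y < b})
    ((isCompact_ball_sqn 0 b).inter_left (isClosed_le continuous_const hc))
    ((isOpen_lt continuous_const hc).inter (isOpen_lt hc continuous_const))
    (fun y hy => ⟨le_of_lt (show a < sqn y from hy.1),
      show sqn (y - 0) ≤ b by simpa using le_of_lt (show sqn y < b from hy.2)⟩)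
    (hf.continuousOn.mono fun y hy => hsub y hy.1)
    (hf.mono fun y hy => hsub y (le_of_lt (show a < sqn y from hy.1)))
    (fun y hy => hlap y (hsub y (le_of_lt (show a < sqn y from hy.1))))
    (fun y hy hyU => hb y ?_) ⟨hax, by simpa using hxb⟩
  have h2 : sqn y ≤ b := by simpa using hy.2
  rcases eq_or_lt_of_le (show a ≤ sqn y from hy.1) with h | h
  · exact Or.inl h.symm
  · exact Or.inr (le_antisymm h2 (not_lt.1 fun h' => hyU ⟨h, h'⟩))

/-- `u` plus a radial function `a log |x|² + c |x|^(2-n) + d`. -/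
theorem combo (hu : ContDiffOn ℝ 2 u (punctured n)) (a c d : ℝ) :
    ContDiffOn ℝ 2 (fun y => u y + (a * Real.log (sqn y) + c * sqn y ^ ((2 - (n : ℝ)) / 2) + d))
        (punctured n) ∧
      ∀ x ∈ punctured n,
        lap (fun y => u y + (a * Real.log (sqn y) + c * sqn y ^ ((2 - (n : ℝ)) / 2) + d)) x =
          lap u x + 2 * a * ((n : ℝ) - 2) / sqn x := by
  set s := (2 - (n : ℝ)) / 2 with hs
  have hS : ContDiff ℝ 2 (sqn (n := n)) := by simpa using contDiff_sqn' (0 : Fin n → ℝ) 2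
  have hg : ContDiffOn ℝ 2 (fun y : Fin n → ℝ => a * Real.log (sqn y) + c * sqn y ^ s + d)
      (punctured n) :=
    ((contDiffOn_const.mul (hS.contDiffOn.log fun y hy => (sqn_pos hy).ne')).add
      (contDiffOn_const.mul (hS.contDiffOn.rpow_const_of_ne fun y hy => (sqn_pos hy).ne'))).add
        contDiffOn_const
  refine ⟨hu.add hg, fun x hx => ?_⟩
  rw [lap_add isOpen_punctured hu hg hx]
  congr 1
  have k1 : ∀ y ∈ punctured n, ∀ i : Fin n,
      pd i (fun y => a * Real.log (sqn y) + c * sqn y ^ s + d) y =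
        (a * (sqn y)⁻¹ + c * (s * sqn y ^ (s - 1))) * (2 * y i) := by
    intro y hy i
    have hX := sqn_pos hy
    have h := ((((Real.hasDerivAt_log hX.ne').const_mul a).fun_add
      ((Real.hasDerivAt_rpow_const (p := s) (Or.inl hX.ne')).const_mul c)).add_const d
        ).comp_hasFDerivAt y ((contDiff_sqn.differentiable one_ne_zero) y).hasFDerivAt
    have e := h.fderiv
    simp only [Function.comp_def] at e
    rw [pd, e, ← pd_sqn y i]
    rfl
  have hX := sqn_pos hx
  have k2 : ∀ i : Fin n,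
      pd i (pd i fun y => a * Real.log (sqn y) + c * sqn y ^ s + d) x =
        2 * (a * (sqn x)⁻¹ + c * (s * sqn x ^ (s - 1))) +
          4 * (a * -(sqn x ^ 2)⁻¹ + c * (s * ((s - 1) * sqn x ^ (s - 1 - 1)))) * x i ^ 2 := by
    intro i
    rw [pd_congr_at (Filter.eventually_of_mem (isOpen_punctured.mem_nhds hx) fun y hy => k1 y hy i)]
    have h1 := (((hasDerivAt_inv hX.ne').const_mul a).fun_add
      (((Real.hasDerivAt_rpow_const (p := s - 1) (Or.inl hX.ne')).const_mul s).const_mul c)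
        ).comp_hasFDerivAt x ((contDiff_sqn.differentiable one_ne_zero) x).hasFDerivAt
    have h2 : HasFDerivAt (fun y : Fin n → ℝ => 2 * y i)
        ((2 : ℝ) • ContinuousLinearMap.proj (R := ℝ) (φ := fun _ : Fin n => ℝ) i) x :=
      (ContinuousLinearMap.proj (R := ℝ) (φ := fun _ : Fin n => ℝ) i).hasFDerivAt.const_mul 2
    have e := (h1.fun_mul h2).fderiv
    simp only [Function.comp_def] at e
    rw [pd, e]
    simp only [add_apply, smul_apply, smul_eq_mul,
      ContinuousLinearMap.proj_apply, Pi.single_eq_same]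
    rw [show fderiv ℝ sqn x (Pi.single i 1) = 2 * x i from pd_sqn x i]
    ring
  rw [lap, Finset.sum_congr rfl fun i _ => k2 i, Finset.sum_add_distrib, Finset.sum_const,
    Finset.card_univ, Fintype.card_fin, nsmul_eq_mul, ← Finset.mul_sum]
  change (n : ℝ) * _ + _ * sqn x = _
  have e1 : sqn x ^ (s - 1 - 1) * sqn x = sqn x ^ (s - 1) := by
    rw [← Real.rpow_add_one hX.ne']; congr 1; ring
  have e2 : (sqn x ^ 2)⁻¹ * sqn x = (sqn x)⁻¹ := by field_simp
  rw [div_eq_mul_inv]
  linear_combination (4 * c * s * (s - 1)) * e1 - (4 * a) * e2 +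
    (c * sqn x ^ (s - 1) * s * 4) * hs

theorem rpow_big {X δ M s : ℝ} (hX : 0 < X) (hδ : 0 < δ) (hM : 0 < M) (hs : s < 0) :
    ∃ a, 0 < a ∧ a ≤ X ∧ M ≤ δ * a ^ s := by
  refine ⟨min X ((M / δ) ^ s⁻¹), lt_min hX (by positivity), min_le_left _ _, ?_⟩
  rw [← div_le_iff₀' hδ]
  calc M / δ = ((M / δ) ^ s⁻¹) ^ s := (Real.rpow_inv_rpow (by positivity) hs.ne).symm
    _ ≤ _ := Real.rpow_le_rpow_of_nonpos (lt_min hX (by positivity)) (min_le_right _ _) hs.le

theorem rpow_small {X δ M s : ℝ} (_hX : 0 < X) (hδ : 0 < δ) (hM : 0 < M) (hs : s < 0) :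
    ∃ b, X ≤ b ∧ M * b ^ s ≤ δ := by
  refine ⟨max X ((δ / M) ^ s⁻¹), le_max_left _ _, ?_⟩
  rw [← le_div_iff₀' hM]
  calc max X ((δ / M) ^ s⁻¹) ^ s ≤ ((δ / M) ^ s⁻¹) ^ s :=
        Real.rpow_le_rpow_of_nonpos (by positivity) (le_max_right _ _) hs.le
    _ = δ / M := Real.rpow_inv_rpow (by positivity) hs.ne

/-- Inside a sphere, `u` is at least its minimum on the sphere. -/
theorem ball_ge (hn : 3 ≤ n) (hu : ContDiffOn ℝ 2 u (punctured n))
    (hlap : ∀ x ∈ punctured n, lap u x < 0) (hpos : ∀ x, 0 < u x) {m X₀ : ℝ}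
    (hm : ∀ y, sqn y = X₀ → m ≤ u y) {x : Fin n → ℝ} (hx : x ∈ punctured n) (hxR : sqn x ≤ X₀) :
    m ≤ u x := by
  by_contra h
  push Not at h
  have hN : (3 : ℝ) ≤ n := by exact_mod_cast hn
  have hX := sqn_pos hx
  set s := (2 - (n : ℝ)) / 2 with hs
  have hs0 : s < 0 := by rw [hs]; linarith
  set δ := (m - u x) / sqn x ^ s / 2 with hδ
  have hδ0 : 0 < δ := by have : 0 < m - u x := by linarith
                         positivity
  obtain ⟨a, ha, haX, hM⟩ := rpow_big hX hδ0 (lt_trans (hpos x) h) hs0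
  obtain ⟨hF, hL⟩ := combo hu 0 δ (-m)
  have key := annulus_principle hF (fun y hy => by rw [hL y hy]; simpa using hlap y hy) ha
    (fun y hy => by
      rcases hy with hy | hy
      · rw [hy]; linarith [hpos y]
      · have := mul_nonneg hδ0.le (Real.rpow_nonneg (sqn_nonneg y) s)
        linarith [hm y hy]) haX hxR
  have e : δ * sqn x ^ s = (m - u x) / 2 := by
    rw [hδ]; field_simp
  linarith

/-- Outside a sphere, `u` is at least the harmonic function with the same minimum. -/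
theorem ext_ge (hn : 3 ≤ n) (hu : ContDiffOn ℝ 2 u (punctured n))
    (hlap : ∀ x ∈ punctured n, lap u x < 0) (hpos : ∀ x, 0 < u x) {m R : ℝ} (hm0 : 0 < m)
    (hR : 0 < R) (hm : ∀ y, sqn y = R ^ 2 → m ≤ u y) {x : Fin n → ℝ} (hxR : R ^ 2 ≤ sqn x) :
    m * (sqn x / R ^ 2) ^ ((2 - (n : ℝ)) / 2) ≤ u x := by
  by_contra h
  push Not at h
  have hN : (3 : ℝ) ≤ n := by exact_mod_cast hn
  set s := (2 - (n : ℝ)) / 2 with hs
  have hs0 : s < 0 := by rw [hs]; linarith
  have hR2 : 0 < R ^ 2 := by positivity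
  rw [Real.div_rpow (sqn_nonneg x) hR2.le, mul_div_left_comm] at h
  set c := m / (R ^ 2) ^ s with hc
  have hc0 : 0 < c := by positivity
  set δ := (sqn x ^ s * c - u x) / 2 with hδ
  have hδ0 : 0 < δ := by linarith
  obtain ⟨b, hb, hM⟩ := rpow_small (lt_of_lt_of_le hR2 hxR) hδ0 hc0 hs0
  obtain ⟨hF, hL⟩ := combo hu 0 (-c) δ
  have key := annulus_principle hF (fun y hy => by rw [hL y hy]; simpa using hlap y hy) hR2
    (fun y hy => by
      rcases hy with hy | hy
      · have e : c * sqn y ^ s = m := by rw [hy, hc]; field_simp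
        linarith [hm y hy]
      · rw [hy]; linarith [hpos y]) hxR hb
  linarith

/-- The barrier on a ball avoiding the origin. -/
theorem ball_barrier (hn : 0 < n) (hu : ContDiffOn ℝ 2 u (punctured n)) (hpos : ∀ x, 0 < u x)
    {x₀ : Fin n → ℝ} {r K : ℝ} (hr : 0 < r) (hK : 0 < K)
    (hball : ∀ y, sqn (y - x₀) ≤ r ^ 2 → y ∈ punctured n ∧ lap u y ≤ -K) :
    K * r ^ 2 / (4 * n) ≤ u x₀ := by
  have hn0 : (0 : ℝ) < n := by exact_mod_cast hn
  set k := K / (4 * n) with hk
  have hk0 : 0 < k := by positivity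
  set g : (Fin n → ℝ) → ℝ := fun y => k * (sqn (y - x₀) - r ^ 2) with hg
  have hgs : ContDiff ℝ 2 g := contDiff_const.mul ((contDiff_sqn' x₀ 2).sub contDiff_const)
  have hlg : ∀ y, lap g y = 2 * n * k := by
    intro y
    have k1 : ∀ (z : Fin n → ℝ) (i : Fin n), pd i g z = k * (2 * (z i - x₀ i)) := by
      intro z i
      have h := ((((contDiff_sqn.differentiable one_ne_zero) (z - x₀)).hasFDerivAt.comp z
        ((hasFDerivAt_id z).sub_const x₀)).sub_const (r ^ 2)).const_mul k
      have e := h.fderiv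
      simp only [Function.comp_def, id] at e
      have h2 := pd_sqn (z - x₀) i
      rw [pd] at h2
      rw [pd, hg, e]
      simp [h2]
    have k2 : ∀ i : Fin n, pd i (pd i g) y = k * 2 := by
      intro i
      rw [show pd i g = fun z => k * (2 * (z i - x₀ i)) from funext fun z => k1 z i, pd,
        (((hasFDerivAt_apply (𝕜 := ℝ) (F' := fun _ : Fin n => ℝ) i y).sub_const (x₀ i)).const_mul
          2).const_mul k |>.fderiv]
      simp
    rw [lap, Finset.sum_congr rfl fun i _ => k2 i, Finset.sum_const, Finset.card_univ,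
      Fintype.card_fin, nsmul_eq_mul]
    ring
  have hU : IsOpen {y | sqn (y - x₀) < r ^ 2} :=
    isOpen_lt (contDiff_sqn' x₀ 1).continuous continuous_const
  have hsub : {y | sqn (y - x₀) < r ^ 2} ⊆ punctured n := fun y hy => (hball y (le_of_lt hy)).1
  have h0 : sqn (x₀ - x₀) = 0 := by simp [sqn]
  have key := min_principle (f := fun y => u y + g y) (isCompact_ball_sqn x₀ (r ^ 2)) hU
    (fun y hy => le_of_lt (show sqn (y - x₀) < r ^ 2 from hy))
    ((hu.continuousOn.mono fun y hy => (hball y hy).1).add hgs.continuous.continuousOn)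
    ((hu.mono hsub).add hgs.contDiffOn)
    (fun y hy => by
      rw [lap_add hU (hu.mono hsub) hgs.contDiffOn hy, hlg y]
      have := (hball y (le_of_lt hy)).2
      have e : 2 * n * k = K / 2 := by rw [hk]; field_simp; ring
      linarith)
    (fun y hy hyU => by
      have e : sqn (y - x₀) = r ^ 2 := le_antisymm hy (not_lt.1 hyU)
      simp only [hg, e, sub_self, mul_zero, add_zero]
      exact (hpos y).le)
    (x := x₀) (by simp only [Set.mem_ofPred_eq, h0]; positivity)
  simp only [hg, h0, zero_sub] at key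
  rw [hk] at key
  linarith [show K / (4 * (n : ℝ)) * -r ^ 2 = -(K * r ^ 2 / (4 * n)) by ring]

theorem exists_sqn_eq (hn : 0 < n) {X : ℝ} (hX : 0 < X) :
    ∃ x : Fin n → ℝ, x ∈ punctured n ∧ sqn x = X := by
  refine ⟨Pi.single ⟨0, hn⟩ (Real.sqrt X), fun h => ?_, ?_⟩
  · have := congrFun (Set.mem_singleton_iff.1 h) ⟨0, hn⟩
    simp [Real.sqrt_eq_zero', not_le.2 hX] at this
  · simp [sqn, Pi.single_apply, ite_pow, Real.sq_sqrt hX.le]

theorem lap_neg (h : IsSolW σ τ p q u v) : ∀ x ∈ punctured n, lap u x < 0 := fun x hx => by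
  rw [h.eq_u x hx]
  exact neg_neg_of_pos (mul_pos (rw'_pos hx σ) (Real.rpow_pos_of_pos (h.pos_v x) p))

/-- A weight at most `-2` excludes solutions. -/
theorem no_solution_of_weight_le (hn : 3 ≤ n) (h : IsSolW σ τ p q u v) (hp : 0 < p)
    (hσ : σ ≤ -2) : False := by
  have hN : (3 : ℝ) ≤ n := by exact_mod_cast hn
  set s := (2 - (n : ℝ)) / 2 with hs
  have hs0 : s < 0 := by rw [hs]; linarith
  have hKc := isCompact_ball_sqn (0 : Fin n → ℝ) 1
  have hne : ({y : Fin n → ℝ | sqn (y - 0) ≤ 1}).Nonempty := ⟨0, by simp [sqn]⟩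
  obtain ⟨y₀, -, hy₀⟩ := hKc.exists_isMinOn hne h.cont_v.continuousOn
  obtain ⟨y₁, -, hy₁⟩ := hKc.exists_isMaxOn hne h.cont_u.continuousOn
  set k := v y₀ ^ p with hk
  have hk0 : 0 < k := Real.rpow_pos_of_pos (h.pos_v _) _
  set a := k / (4 * ((n : ℝ) - 2)) with ha
  have hn2 : (0 : ℝ) < n - 2 := by linarith
  have ha0 : 0 < a := by positivity
  have hlow : ∀ x ∈ punctured n, sqn x < 1 → -a * Real.log (sqn x) ≤ u x := by
    intro x hx hx1
    by_contra hc
    push Not at hc
    have hX := sqn_pos hx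
    set δ := (-a * Real.log (sqn x) - u x) / sqn x ^ s / 2 with hδ
    have hδ0 : 0 < δ := div_pos (div_pos (by linarith) (by positivity)) two_pos
    obtain ⟨e, he1, he2, he0⟩ := ((((tendsto_log_mul_rpow_nhdsGT_zero (neg_pos.2 hs0)).const_mul
      a).eventually (eventually_gt_nhds (show a * 0 > -δ by linarith))).and
      ((eventually_nhdsWithin_of_eventually_nhds (eventually_le_nhds hX)).and
        (eventually_mem_nhdsWithin (s := Set.Ioi (0 : ℝ))))).exists
    have he : 0 < e := he0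
    have hin : 0 ≤ a * Real.log e + δ * e ^ s := by
      have := mul_nonneg (show 0 ≤ a * (Real.log e * e ^ (-s)) + δ by linarith)
        (Real.rpow_nonneg he.le s)
      have h1 : e ^ (-s) * e ^ s = 1 := by rw [← Real.rpow_add he, neg_add_cancel, Real.rpow_zero]
      have h2 : (a * (Real.log e * e ^ (-s)) + δ) * e ^ s = a * Real.log e + δ * e ^ s := by
        linear_combination (a * Real.log e) * h1
      linarith
    obtain ⟨hF, hL⟩ := combo h.smooth_u a δ 0
    -- the Laplacian is negative only inside the unit ball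
    have hsub : ∀ y : Fin n → ℝ, e ≤ sqn y → y ∈ punctured n := fun y hy h0 => by
      rw [Set.mem_singleton_iff.1 h0] at hy
      simp [sqn] at hy
      linarith
    have hcS : Continuous (sqn (n := n)) := contDiff_sqn.continuous
    have key := min_principle
      (f := fun y => u y + (a * Real.log (sqn y) + δ * sqn y ^ s + 0))
      (K := {y | e ≤ sqn y} ∩ {y | sqn (y - 0) ≤ 1})
      (U := {y | e < sqn y} ∩ {y | sqn y < 1})
      (hKc.inter_left (isClosed_le continuous_const hcS))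
      ((isOpen_lt continuous_const hcS).inter (isOpen_lt hcS continuous_const))
      (fun y hy => ⟨le_of_lt (show e < sqn y from hy.1),
        show sqn (y - 0) ≤ 1 by simpa using le_of_lt (show sqn y < 1 from hy.2)⟩)
      (hF.continuousOn.mono fun y hy => hsub y hy.1)
      (hF.mono fun y hy => hsub y (le_of_lt (show e < sqn y from hy.1)))
      (fun y hy => by
        have hyp := hsub y (le_of_lt (show e < sqn y from hy.1))
        have hy1 : sqn y < 1 := hy.2
        have hY := sqn_pos hyp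
        rw [hL y hyp, h.eq_u y hyp]
        have h1 : (sqn y)⁻¹ ≤ rw' σ y := by
          rw [rw', ← Real.rpow_neg_one]
          exact Real.rpow_le_rpow_of_exponent_ge hY hy1.le (by linarith)
        have h2 : k ≤ v y ^ p :=
          Real.rpow_le_rpow (h.pos_v _).le (hy₀ (show sqn (y - 0) ≤ 1 by simpa using hy1.le)) hp.le
        have h3 : (sqn y)⁻¹ * k ≤ rw' σ y * v y ^ p :=
          mul_le_mul h1 h2 hk0.le (rw'_pos hyp σ).le
        have h4 : 2 * a * ((n : ℝ) - 2) / sqn y = (sqn y)⁻¹ * k / 2 := by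
          rw [ha]; field_simp; ring
        have : 0 < (sqn y)⁻¹ * k := by positivity
        linarith)
      (fun y hy hyU => by
        have hyu := h.pos_u y
        rcases eq_or_lt_of_le (show e ≤ sqn y from hy.1) with h' | h'
        · rw [← h']; linarith
        · have h1 : sqn y = 1 := le_antisymm (by simpa using hy.2)
            (not_lt.1 fun h'' => hyU ⟨h', h''⟩)
          rw [h1]; simp; linarith)
      (x := x) ⟨he2, by simpa using hx1.le⟩
    have e1 : δ * sqn x ^ s = (-a * Real.log (sqn x) - u x) / 2 := by rw [hδ]; field_simp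
    linarith
  obtain ⟨x, hx, hX⟩ := exists_sqn_eq (n := n) (by omega) (Real.exp_pos (-((|u y₁| + 1) / a)))
  have h1 : sqn x < 1 := by
    rw [hX, Real.exp_lt_one_iff]
    have : 0 < (|u y₁| + 1) / a := by positivity
    linarith
  have h2 := hlow x hx h1
  rw [hX, Real.log_exp, neg_mul_neg, mul_div_cancel₀ _ ha0.ne'] at h2
  have h3 : u x ≤ u y₁ := hy₁ (by simpa using h1.le)
  linarith [le_abs_self (u y₁)]

/-- `U ≥ L R^(2+σ) V^p` on spheres. -/
theorem sphere_step (hn : 3 ≤ n) (h : IsSolW σ τ p q u v) (hp : 0 < p) :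
    ∃ L, 0 < L ∧ ∀ R, 0 < R → ∀ mv, 0 < mv → (∀ y, sqn y = R ^ 2 → mv ≤ v y) →
      ∀ x, sqn x = R ^ 2 → L * R ^ (2 + σ) * mv ^ p ≤ u x := by
  have hN : (3 : ℝ) ≤ n := by exact_mod_cast hn
  set c₀ := (2 : ℝ) ^ ((2 - (n : ℝ)) / 2) with hc₀
  have hc₀0 : 0 < c₀ := Real.rpow_pos_of_pos two_pos _
  have hc₀1 : c₀ ≤ 1 := Real.rpow_le_one_of_one_le_of_nonpos one_le_two (by linarith)
  set w := min ((1 / 2 : ℝ) ^ (σ / 2)) (2 ^ (σ / 2)) with hw
  have hw0 : 0 < w := lt_min (by positivity) (by positivity)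
  refine ⟨w * c₀ ^ p / (64 * n), by positivity, fun R hR mv hmv hm x₀ hx₀ => ?_⟩
  have hball : ∀ y, sqn (y - x₀) ≤ (R / 4) ^ 2 →
      y ∈ punctured n ∧ lap u y ≤ -(w * R ^ σ * (c₀ * mv) ^ p) := by
    intro y hy
    have e : sqn y = sqn x₀ + sqn (y - x₀) + 2 * ∑ i, x₀ i * (y i - x₀ i) := by
      simp only [sqn, Finset.mul_sum, ← Finset.sum_add_distrib, Pi.sub_apply]
      exact Finset.sum_congr rfl fun i _ => by ring
    have hab : |2 * ∑ i, x₀ i * (y i - x₀ i)| ≤ sqn x₀ / 4 + 4 * sqn (y - x₀) := by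
      simp only [sqn, Finset.mul_sum, Finset.sum_div, ← Finset.sum_add_distrib, Pi.sub_apply]
      refine (Finset.abs_sum_le_sum_abs _ _).trans (Finset.sum_le_sum fun i _ => ?_)
      rw [abs_le]
      constructor <;> nlinarith [sq_nonneg (x₀ i / 2 + 2 * (y i - x₀ i)),
        sq_nonneg (x₀ i / 2 - 2 * (y i - x₀ i))]
    have hD := sqn_nonneg (y - x₀)
    rw [abs_le] at hab
    have hR2 : 0 < R ^ 2 := by positivity
    have hlo : R ^ 2 / 2 ≤ sqn y := by nlinarith
    have hhi : sqn y ≤ 2 * R ^ 2 := by nlinarith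
    have hy0 : y ∈ punctured n := fun h0 => by
      rw [Set.mem_singleton_iff.1 h0] at hlo
      simp [sqn] at hlo
      linarith
    refine ⟨hy0, ?_⟩
    rw [h.eq_u y hy0, neg_le_neg_iff]
    have hv : c₀ * mv ≤ v y := by
      rcases le_total (sqn y) (R ^ 2) with h' | h'
      · exact (mul_le_of_le_one_left hmv.le hc₀1).trans
          (ball_ge hn h.smooth_v (lap_neg h.swap) h.pos_v hm hy0 h')
      · refine le_trans ?_ (ext_ge hn h.smooth_v (lap_neg h.swap) h.pos_v hmv hR hm h')
        rw [mul_comm]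
        refine mul_le_mul_of_nonneg_left ?_ hmv.le
        exact Real.rpow_le_rpow_of_nonpos (div_pos (sqn_pos hy0) hR2)
          (by rw [div_le_iff₀ hR2]; linarith) (by linarith)
    have hwt : w * R ^ σ ≤ rw' σ y := by
      have e2 : rw' σ y = (sqn y / R ^ 2) ^ (σ / 2) * R ^ σ := by
        rw [rw', Real.div_rpow (sqn_nonneg y) hR2.le,
          show (R ^ 2) ^ (σ / 2) = R ^ σ by
            rw [← Real.rpow_natCast R 2, ← Real.rpow_mul hR.le]; congr 1; push_cast; ring]
        field_simp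
      rw [e2]
      refine mul_le_mul_of_nonneg_right ?_ (Real.rpow_nonneg hR.le _)
      rcases le_total 0 σ with h' | h'
      · exact (min_le_left _ _).trans (Real.rpow_le_rpow (by norm_num)
          (by rw [le_div_iff₀ hR2]; linarith) (by linarith))
      · exact (min_le_right _ _).trans (Real.rpow_le_rpow_of_nonpos
          (div_pos (sqn_pos hy0) hR2) (by rw [div_le_iff₀ hR2]; linarith) (by linarith))
    exact mul_le_mul hwt (Real.rpow_le_rpow (by positivity) hv hp.le) (by positivity)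
      (rw'_pos hy0 σ).le
  refine le_of_eq_of_le ?_
    (ball_barrier (by omega) h.smooth_u h.pos_u (by positivity : 0 < R / 4) (by positivity) hball)
  rw [Real.mul_rpow hc₀0.le hmv.le, Real.rpow_add hR, Real.rpow_two]
  field_simp
  ring

/-- `pq ≤ 1` excludes solutions. -/
theorem no_solution_of_pq_le_one (hn : 3 ≤ n) (h : IsSolW σ τ p q u v) (hp : 0 < p) (hq : 0 < q)
    (hpq : p * q ≤ 1) : False := by
  rcases le_or_gt σ (-2) with hσ | hσ
  · exact no_solution_of_weight_le hn h hp hσ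
  rcases le_or_gt τ (-2) with hτ | hτ
  · exact no_solution_of_weight_le hn h.swap hq hτ
  obtain ⟨L₁, hL₁, h1⟩ := sphere_step hn h hp
  obtain ⟨L₂, hL₂, h2⟩ := sphere_step hn h.swap hq
  obtain ⟨x₁, hx₁, hX₁⟩ := exists_sqn_eq (n := n) (by omega) one_pos
  set e := (2 + σ) + p * (2 + τ) with he
  have he0 : 0 < e := by
    have := mul_pos hp (show 0 < 2 + τ by linarith)
    linarith
  set L := L₁ * L₂ ^ p with hL
  have hL0 : 0 < L := by positivity
  obtain ⟨R, hR1, hR⟩ := ((eventually_ge_atTop (1 : ℝ)).and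
    ((tendsto_rpow_atTop he0).eventually
      (eventually_gt_atTop (u x₁ ^ (1 - p * q) / L)))).exists
  have hR0 : 0 < R := by linarith
  obtain ⟨z, _, hz⟩ := exists_sqn_eq (n := n) (by omega) (show 0 < R ^ 2 by positivity)
  have hSc : IsCompact {y : Fin n → ℝ | sqn y = R ^ 2} :=
    (isCompact_ball_sqn 0 (R ^ 2)).of_isClosed_subset
      (isClosed_eq contDiff_sqn.continuous continuous_const)
      fun y hy => by simpa using le_of_eq (show sqn y = R ^ 2 from hy)
  obtain ⟨yu, hyu, hmu⟩ := hSc.exists_isMinOn ⟨z, hz⟩ h.cont_u.continuousOn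
  obtain ⟨yv, hyv, hmv⟩ := hSc.exists_isMinOn ⟨z, hz⟩ h.cont_v.continuousOn
  have hu0 := h.pos_u yu
  have k1 := h1 R hR0 (v yv) (h.pos_v _) (fun y hy => hmv hy) yu hyu
  have k2 := h2 R hR0 (u yu) hu0 (fun y hy => hmu hy) yv hyv
  have k3 : u yu ≤ u x₁ := ball_ge hn h.smooth_u (lap_neg h) h.pos_u (fun y hy => hmu hy) hx₁
    (by rw [hX₁]; nlinarith)
  have k4 : L * R ^ e * u yu ^ (p * q) ≤ u yu := by
    refine le_trans ?_ k1
    calc L * R ^ e * u yu ^ (p * q) = L₁ * R ^ (2 + σ) * (L₂ * R ^ (2 + τ) * u yu ^ q) ^ p := by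
          rw [Real.mul_rpow (by positivity) (by positivity),
            Real.mul_rpow hL₂.le (by positivity), ← Real.rpow_mul hR0.le, ← Real.rpow_mul hu0.le,
            he, Real.rpow_add hR0, hL, mul_comm (2 + τ) p, mul_comm q p]
          ring
      _ ≤ _ := mul_le_mul_of_nonneg_left (Real.rpow_le_rpow (by positivity) k2 hp.le)
          (by positivity)
  have k5 : u yu ^ (1 - p * q) * u yu ^ (p * q) = u yu := by
    rw [← Real.rpow_add hu0, sub_add_cancel, Real.rpow_one]
  have k6 : L * R ^ e ≤ u yu ^ (1 - p * q) :=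
    le_of_mul_le_mul_right (k4.trans_eq k5.symm) (Real.rpow_pos_of_pos hu0 _)
  have k7 : u yu ^ (1 - p * q) ≤ u x₁ ^ (1 - p * q) :=
    Real.rpow_le_rpow hu0.le k3 (by linarith)
  rw [div_lt_iff₀ hL0] at hR
  linarith

/-- In the plane there are no solutions at all. -/
theorem no_solution_two (hn : n = 2) (h : IsSolW σ τ p q u v) : False := by
  obtain ⟨z, _, hz⟩ := exists_sqn_eq (n := n) (by omega) one_pos
  have hSc : IsCompact {y : Fin n → ℝ | sqn y = 1} :=
    (isCompact_ball_sqn 0 1).of_isClosed_subset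
      (isClosed_eq contDiff_sqn.continuous continuous_const)
      fun y hy => by simpa using le_of_eq (show sqn y = 1 from hy)
  obtain ⟨y₀, hy₀, hmin⟩ := hSc.exists_isMinOn ⟨z, hz⟩ h.cont_u.continuousOn
  set m := u y₀ with hm
  have hm0 : 0 < m := h.pos_u _
  have hmem : y₀ ∈ punctured n := fun h0 => by
    have : sqn y₀ = 1 := hy₀
    rw [Set.mem_singleton_iff.1 h0] at this
    simp [sqn] at this
  have hs : ∀ x : Fin n → ℝ, sqn x = 1 → m ≤ u x := fun x hx => hmin hx
  have hn' : (n : ℝ) - 2 = 0 := by rw [hn]; norm_num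
  have hall : ∀ x ∈ punctured n, m ≤ u x := by
    intro x hx
    by_contra hc
    push Not at hc
    have hX := sqn_pos hx
    have hX1 : sqn x ≠ 1 := fun e => absurd (hs x e) (not_le.2 hc)
    have hL : Real.log (sqn x) ≠ 0 := Real.log_ne_zero_of_pos_of_ne_one hX hX1
    set a := (m - u x) / 2 / Real.log (sqn x) with ha
    have e1 : a * Real.log (sqn x) = (m - u x) / 2 := div_mul_cancel₀ _ hL
    obtain ⟨hF, hLap⟩ := combo h.smooth_u a 0 (-m)
    have hlap : ∀ y ∈ punctured n, lap (fun y => u y + (a * Real.log (sqn y) +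
        0 * sqn y ^ ((2 - (n : ℝ)) / 2) + -m)) y < 0 := fun y hy => by
      rw [hLap y hy, hn']; simpa using lap_neg h y hy
    have ha0 : a ≠ 0 := by
      rw [ha]; exact div_ne_zero (by linarith) hL
    have hfar : ∀ y : Fin n → ℝ, sqn y = Real.exp (m / a) →
        0 ≤ u y + (a * Real.log (sqn y) + 0 * sqn y ^ ((2 - (n : ℝ)) / 2) + -m) := fun y hy => by
      rw [hy, Real.log_exp, mul_div_cancel₀ _ ha0]; linarith [h.pos_u y]
    have hone : ∀ y : Fin n → ℝ, sqn y = 1 →
        0 ≤ u y + (a * Real.log (sqn y) + 0 * sqn y ^ ((2 - (n : ℝ)) / 2) + -m) := fun y hy => by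
      rw [hy, Real.log_one]; linarith [hs y hy]
    rcases lt_or_gt_of_ne hX1 with h1 | h1
    · have hneg : a < 0 := div_neg_of_pos_of_neg (by linarith) (Real.log_neg hX h1)
      have hle : Real.exp (m / a) ≤ sqn x := by
        rw [← Real.exp_log hX, Real.exp_le_exp, div_le_iff_of_neg hneg]
        linarith [h.pos_u x]
      have key := annulus_principle hF hlap (Real.exp_pos _)
        (fun y hy => hy.elim (hfar y) (hone y)) hle h1.le
      linarith
    · have hpos : 0 < a := div_pos (by linarith) (Real.log_pos h1)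
      have hle : sqn x ≤ Real.exp (m / a) := by
        rw [← Real.exp_log hX, Real.exp_le_exp, le_div_iff₀ hpos]
        linarith [h.pos_u x]
      have key := annulus_principle hF hlap one_pos
        (fun y hy => hy.elim (hone y) (hfar y)) h1.le hle
      linarith
  have hloc : IsLocalMin u y₀ :=
    mem_of_superset (isOpen_punctured.mem_nhds hmem) fun x hx => hall x hx
  exact absurd (lap_neg h y₀ hmem)
    (not_lt.2 (lap_nonneg_of_isLocalMin isOpen_punctured h.smooth_u hmem hloc))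

end Vale.Agent.P100.Weighted
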