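import Vale.Agent.P100.Weighted.Shell

/-!
# P100: the Pohozaev identity for the weighted system

If the boundary terms on shells can be made small near the origin and far out, there is no
positive solution of the subcritical system.
-/

namespace Vale.Agent.P100.Weighted

open Set Filter Topology MeasureTheory
open Vale.Agent.P252 (pd continuous_pd)

variable {n : ℕ} {σ τ p q : ℝ} {u v : (Fin n → ℝ) → ℝ}

/-- `x · Df`. -/
noncomputable def xd (f : (Fin n → ℝ) → ℝ) (x : Fin n → ℝ) : ℝ := ∑ j, x j * pd j f x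

/-- `Du · Dv`. -/
noncomputable def dd (f g : (Fin n → ℝ) → ℝ) (x : Fin n → ℝ) : ℝ := ∑ j, pd j f x * pd j g x

/-- The potential `|x|^σ v^(p+1) / (p+1)`. -/
noncomputable def pot (σ p : ℝ) (v : (Fin n → ℝ) → ℝ) (x : Fin n → ℝ) : ℝ :=
  rw' σ x * v x ^ (p + 1) / (p + 1)

/-- The Pohozaev field, with the multipliers `a` of `u Dv` and `b` of `v Du`. -/
noncomputable def pohField (σ τ p q a b : ℝ) (u v : (Fin n → ℝ) → ℝ) (i : Fin n)
    (x : Fin n → ℝ) : ℝ :=
  xd u x * pd i v x + xd v x * pd i u x - dd u v x * x i +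
    x i * (pot σ p v x + pot τ q u x) + (a * (u x * pd i v x) + b * (v x * pd i u x))

theorem pd_coord (i j : Fin n) (x : Fin n → ℝ) :
    pd i (fun y => y j) x = (Pi.single i 1 : Fin n → ℝ) j := by
  have h := (ContinuousLinearMap.proj (R := ℝ) (φ := fun _ : Fin n => ℝ) j).hasFDerivAt (x := x)
  simp only [pd]
  rw [show (fun y : Fin n → ℝ => y j) =
    ⇑(ContinuousLinearMap.proj (R := ℝ) (φ := fun _ : Fin n => ℝ) j) from rfl, h.fderiv]
  rfl

theorem pd_sum_mul {f g : Fin n → (Fin n → ℝ) → ℝ} {x : Fin n → ℝ}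
    (hf : ∀ j, DifferentiableAt ℝ (f j) x) (hg : ∀ j, DifferentiableAt ℝ (g j) x) (i : Fin n) :
    pd i (fun y => ∑ j, f j y * g j y) x =
      ∑ j, (pd i (f j) x * g j x + f j x * pd i (g j) x) := by
  have e : pd i (fun y => ∑ j, f j y * g j y) x = ∑ j, pd i (fun y => f j y * g j y) x := by
    simp only [pd]
    rw [fderiv_fun_sum fun j _ => (hf j).fun_mul (hg j)]
    simp
  rw [e]
  exact Finset.sum_congr rfl fun j _ => pd_mul_at (hf j) (hg j) i

theorem pd_add_at {f g : (Fin n → ℝ) → ℝ} {x : Fin n → ℝ} (hf : DifferentiableAt ℝ f x)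
    (hg : DifferentiableAt ℝ g x) (i : Fin n) :
    pd i (fun y => f y + g y) x = pd i f x + pd i g x := by
  simp [pd, fderiv_fun_add hf hg]

theorem pd_sub_at {f g : (Fin n → ℝ) → ℝ} {x : Fin n → ℝ} (hf : DifferentiableAt ℝ f x)
    (hg : DifferentiableAt ℝ g x) (i : Fin n) :
    pd i (fun y => f y - g y) x = pd i f x - pd i g x := by
  simp [pd, fderiv_fun_sub hf hg]

theorem contDiffOn_pot (hv : ContDiffOn ℝ 2 v (punctured n)) (hpv : ∀ x, 0 < v x) :
    ContDiffOn ℝ 1 (pot σ p v) (punctured n) :=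
  (contDiffOn_src hv hpv).div_const _

theorem pd_pot (hv : ContDiffOn ℝ 2 v (punctured n)) (hpv : ∀ x, 0 < v x) (hp : 0 < p)
    {x : Fin n → ℝ} (hx : x ∈ punctured n) (i : Fin n) :
    pd i (pot σ p v) x = rw' σ x * v x ^ p * pd i v x +
      σ * (rw' σ x * v x ^ (p + 1)) / (p + 1) * (x i / sqn x) := by
  have e : pot σ p v = fun y => (p + 1)⁻¹ * (rw' σ y * v y ^ (p + 1)) := funext fun y => by
    rw [pot, div_eq_inv_mul]
  have hd := diffAt (contDiffOn_src (σ := σ) (p := p + 1) hv hpv) hx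
  rw [e, pd_mul_at (differentiableAt_const _) hd, pd_src hv hpv hx]
  simp only [pd, fderiv_fun_const, Pi.zero_apply, ja, je]
  rw [Real.rpow_add (hpv x), Real.rpow_one]
  have := (hpv x).ne'
  have : p + 1 ≠ 0 := by linarith
  simp
  field_simp

theorem contDiffOn_pohField (h : IsSolW σ τ p q u v) (a b : ℝ) (i : Fin n) :
    ContDiffOn ℝ 1 (pohField σ τ p q a b u v i) (punctured n) := by
  have hu := fun j => contDiffOn_pd isOpen_punctured h.smooth_u j
  have hv := fun j => contDiffOn_pd isOpen_punctured h.smooth_v j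
  have hc : ∀ j : Fin n, ContDiffOn ℝ 1 (fun y : Fin n → ℝ => y j) (punctured n) := fun j =>
    (contDiff_apply ℝ ℝ j).contDiffOn
  have h1 : ContDiffOn ℝ 1 (xd u) (punctured n) := ContDiffOn.sum fun j _ => (hc j).mul (hu j)
  have h2 : ContDiffOn ℝ 1 (xd v) (punctured n) := ContDiffOn.sum fun j _ => (hc j).mul (hv j)
  have h3 : ContDiffOn ℝ 1 (dd u v) (punctured n) := ContDiffOn.sum fun j _ => (hu j).mul (hv j)
  exact ((((h1.mul (hv i)).add (h2.mul (hu i))).sub (h3.mul (hc i))).add
    ((hc i).mul ((contDiffOn_pot h.smooth_v h.pos_v).add (contDiffOn_pot h.smooth_u h.pos_u)))).add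
    ((contDiffOn_const.mul ((h.smooth_u.of_le one_le_two).mul (hv i))).add
      (contDiffOn_const.mul ((h.smooth_v.of_le one_le_two).mul (hu i))))

/-- **The Pohozaev identity**, pointwise. -/
theorem div_pohField (h : IsSolW σ τ p q u v) (hp : 0 < p) (hq : 0 < q) {a b : ℝ}
    (hab : a + b = (n : ℝ) - 2) {x : Fin n → ℝ} (hx : x ∈ punctured n) :
    ∑ i, pd i (pohField σ τ p q a b u v i) x =
      ((n + σ) / (p + 1) - b) * (rw' σ x * v x ^ (p + 1)) +
        ((n + τ) / (q + 1) - a) * (rw' τ x * u x ^ (q + 1)) := by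
  have hu := fun j => contDiffOn_pd isOpen_punctured h.smooth_u j
  have hv := fun j => contDiffOn_pd isOpen_punctured h.smooth_v j
  have du := fun j => diffAt (hu j) hx
  have dv := fun j => diffAt (hv j) hx
  have du0 := diffAt (h.smooth_u.of_le one_le_two) hx
  have dv0 := diffAt (h.smooth_v.of_le one_le_two) hx
  have dc : ∀ j : Fin n, DifferentiableAt ℝ (fun y : Fin n → ℝ => y j) x := fun j =>
    differentiableAt_apply (𝕜 := ℝ) j x
  have dxu : DifferentiableAt ℝ (xd u) x := DifferentiableAt.fun_sum fun j _ => (dc j).fun_mul (du j)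
  have dxv : DifferentiableAt ℝ (xd v) x := DifferentiableAt.fun_sum fun j _ => (dc j).fun_mul (dv j)
  have ddd : DifferentiableAt ℝ (dd u v) x := DifferentiableAt.fun_sum fun j _ => (du j).fun_mul (dv j)
  have dpu := diffAt (contDiffOn_pot (σ := σ) (p := p) h.smooth_v h.pos_v) hx
  have dpv := diffAt (contDiffOn_pot (σ := τ) (p := q) h.smooth_u h.pos_u) hx
  set Ku := σ * (rw' σ x * v x ^ (p + 1)) / (p + 1) / sqn x with hKu
  set Kv := τ * (rw' τ x * u x ^ (q + 1)) / (q + 1) / sqn x with hKv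
  have eu : ∀ i, pd i (xd u) x = pd i u x + ∑ j, x j * pd i (pd j u) x := fun i => by
    rw [show xd u = fun y => ∑ j, (fun j y => y j) j y * (fun j => pd j u) j y from rfl,
      pd_sum_mul dc du, Finset.sum_add_distrib]
    simp [pd_coord, Pi.single_apply]
  have ev : ∀ i, pd i (xd v) x = pd i v x + ∑ j, x j * pd i (pd j v) x := fun i => by
    rw [show xd v = fun y => ∑ j, (fun j y => y j) j y * (fun j => pd j v) j y from rfl,
      pd_sum_mul dc dv, Finset.sum_add_distrib]
    simp [pd_coord, Pi.single_apply]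
  have ed : ∀ i, pd i (dd u v) x =
      (∑ j, pd i (pd j u) x * pd j v x) + ∑ j, pd j u x * pd i (pd j v) x := fun i => by
    rw [show dd u v = fun y => ∑ j, (fun j => pd j u) j y * (fun j => pd j v) j y from rfl,
      pd_sum_mul du dv, Finset.sum_add_distrib]
  have e : ∀ i, pd i (pohField σ τ p q a b u v i) x =
      (2 + a + b) * (pd i u x * pd i v x) + (∑ j, x j * pd i (pd j u) x * pd i v x) +
        (∑ j, x j * pd i (pd j v) x * pd i u x) - (∑ j, x i * pd i (pd j u) x * pd j v x) -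
        (∑ j, x i * pd i (pd j v) x * pd j u x) + xd u x * pd i (pd i v) x +
        xd v x * pd i (pd i u) x - dd u v x + (pot σ p v x + pot τ q u x) +
        (Ku + Kv) * x i ^ 2 + rw' σ x * v x ^ p * (x i * pd i v x) +
        rw' τ x * u x ^ q * (x i * pd i u x) + a * u x * pd i (pd i v) x +
        b * v x * pd i (pd i u) x := fun i => by
    unfold pohField
    rw [pd_add_at
        ((((dxu.fun_mul (dv i)).fun_add (dxv.fun_mul (du i))).fun_sub (ddd.fun_mul (dc i))).fun_add
          ((dc i).fun_mul (dpu.fun_add dpv)))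
        (((differentiableAt_const a).fun_mul (du0.fun_mul (dv i))).fun_add
          ((differentiableAt_const b).fun_mul (dv0.fun_mul (du i)))),
      pd_add_at (((dxu.fun_mul (dv i)).fun_add (dxv.fun_mul (du i))).fun_sub (ddd.fun_mul (dc i)))
        ((dc i).fun_mul (dpu.fun_add dpv)),
      pd_sub_at ((dxu.fun_mul (dv i)).fun_add (dxv.fun_mul (du i))) (ddd.fun_mul (dc i)),
      pd_add_at (dxu.fun_mul (dv i)) (dxv.fun_mul (du i)),
      pd_mul_at dxu (dv i), pd_mul_at dxv (du i), pd_mul_at ddd (dc i),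
      pd_mul_at (dc i) (dpu.fun_add dpv), pd_add_at dpu dpv,
      pd_add_at ((differentiableAt_const a).fun_mul (du0.fun_mul (dv i)))
        ((differentiableAt_const b).fun_mul (dv0.fun_mul (du i))),
      pd_mul_at (differentiableAt_const a) (du0.fun_mul (dv i)),
      pd_mul_at (differentiableAt_const b) (dv0.fun_mul (du i)),
      pd_mul_at du0 (dv i), pd_mul_at dv0 (du i), eu, ev, ed,
      pd_pot h.smooth_v h.pos_v hp hx, pd_pot h.smooth_u h.pos_u hq hx, pd_coord,
      show pd i (fun _ : Fin n → ℝ => a) x = 0 by simp [pd],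
      show pd i (fun _ : Fin n → ℝ => b) x = 0 by simp [pd], Pi.single_eq_same, hKu, hKv]
    simp only [mul_assoc (x i), mul_comm (pd i (pd _ v) x) (pd _ u x), ← Finset.mul_sum,
      ← Finset.sum_mul]
    ring
  have hlu : ∑ i, pd i (pd i u) x = -(rw' σ x * v x ^ p) := h.eq_u x hx
  have hlv : ∑ i, pd i (pd i v) x = -(rw' τ x * u x ^ q) := h.eq_v x hx
  have s1 : ∑ i, ∑ j, x j * pd i (pd j u) x * pd i v x =
      ∑ i, ∑ j, x i * pd i (pd j u) x * pd j v x := by
    rw [Finset.sum_comm]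
    refine Finset.sum_congr rfl fun i _ => Finset.sum_congr rfl fun j _ => ?_
    rw [pd_pd_comm isOpen_punctured h.smooth_u hx j i]
  have s2 : ∑ i, ∑ j, x j * pd i (pd j v) x * pd i u x =
      ∑ i, ∑ j, x i * pd i (pd j v) x * pd j u x := by
    rw [Finset.sum_comm]
    refine Finset.sum_congr rfl fun i _ => Finset.sum_congr rfl fun j _ => ?_
    rw [pd_pd_comm isOpen_punctured h.smooth_v hx j i]
  have hK : (Ku + Kv) * sqn x = σ * (rw' σ x * v x ^ (p + 1)) / (p + 1) +
      τ * (rw' τ x * u x ^ (q + 1)) / (q + 1) := by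
    rw [hKu, hKv, add_mul, div_mul_cancel₀ _ (sqn_pos hx).ne',
      div_mul_cancel₀ _ (sqn_pos hx).ne']
  simp only [e, Finset.sum_add_distrib, Finset.sum_sub_distrib, ← Finset.mul_sum, s1, s2, hlu,
    hlv, Finset.sum_const, Finset.card_univ, Fintype.card_fin, nsmul_eq_mul]
  rw [← sqn, ← xd, ← xd, ← dd, hK]
  simp only [pot]
  rw [Real.rpow_add (h.pos_v x), Real.rpow_one, Real.rpow_add (h.pos_u x), Real.rpow_one]
  linear_combination dd u v x * hab

theorem abs_pd_le {f : (Fin n → ℝ) → ℝ} {x : Fin n → ℝ} (hf : 0 < f x) (i : Fin n) :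
    |pd i f x| ≤ f x * Real.sqrt (dotv (ja f x) (ja f x)) := by
  have h : |ja f x i| ≤ Real.sqrt (dotv (ja f x) (ja f x)) := by
    rw [← Real.sqrt_mul_self_eq_abs]
    exact Real.sqrt_le_sqrt (Finset.single_le_sum (f := fun j => ja f x j * ja f x j)
      (fun j _ => mul_self_nonneg _) (Finset.mem_univ i))
  calc |pd i f x| = f x * |ja f x i| := by
        rw [ja, abs_div, abs_of_pos hf, mul_div_cancel₀ _ hf.ne']
    _ ≤ _ := mul_le_mul_of_nonneg_left h hf.le

/-- The size of the Pohozaev field. -/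
theorem pohField_le (h : IsSolW σ τ p q u v) (hp : 0 < p) (hq : 0 < q) (a b : ℝ) {x : Fin n → ℝ}
    (hx : x ∈ punctured n) (i : Fin n) :
    |pohField σ τ p q a b u v i x| ≤
      (3 * n + 2 + |a| + |b|) * (Real.sqrt (sqn x) * bTerm σ τ p q u v x) := by
  have hu := h.pos_u x
  have hv := h.pos_v x
  obtain ⟨A, hA⟩ : ∃ y, y = dotv (ja u x) (ja u x) := ⟨_, rfl⟩
  obtain ⟨B, hB⟩ : ∃ y, y = dotv (ja v x) (ja v x) := ⟨_, rfl⟩
  obtain ⟨r, hr⟩ : ∃ y, y = Real.sqrt (sqn x) := ⟨_, rfl⟩
  have hA0 : 0 ≤ A := hA ▸ Finset.sum_nonneg fun j _ => mul_self_nonneg _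
  have hB0 : 0 ≤ B := hB ▸ Finset.sum_nonneg fun j _ => mul_self_nonneg _
  have hr0 : 0 < r := hr ▸ Real.sqrt_pos.2 (sqn_pos hx)
  have hxi : ∀ j, |x j| ≤ r := fun j => abs_le_of_sqn_le hr0.le
    (le_of_eq (by rw [hr, Real.sq_sqrt (sqn_nonneg x)])) j
  have hsa : Real.sqrt A ^ 2 = A := Real.sq_sqrt hA0
  have hsb : Real.sqrt B ^ 2 = B := Real.sq_sqrt hB0
  have hdu : ∀ j, |pd j u x| ≤ u x * Real.sqrt A := fun j => hA ▸ abs_pd_le hu j
  have hdv : ∀ j, |pd j v x| ≤ v x * Real.sqrt B := fun j => hB ▸ abs_pd_le hv j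
  have hsab : Real.sqrt A * Real.sqrt B ≤ A + B := by
    nlinarith only [sq_nonneg (Real.sqrt A - Real.sqrt B), hsa, hsb, Real.sqrt_nonneg A,
      Real.sqrt_nonneg B]
  have hs : 0 < jw σ p u v x := jw_pos h hx
  have ht : 0 < jw τ q v u x := jw_pos h.swap hx
  have hi : 0 < (sqn x)⁻¹ := inv_pos.2 (sqn_pos hx)
  set Z := r * bTerm σ τ p q u v x with hZ
  have hb : bTerm σ τ p q u v x =
      u x * v x * (A + B + jw σ p u v x + jw τ q v u x + (sqn x)⁻¹) := by rw [hA, hB, bTerm]
  have hm : ∀ y, y ≤ A + B + jw σ p u v x + jw τ q v u x + (sqn x)⁻¹ →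
      r * (u x * v x * y) ≤ Z := fun y hy => by
    rw [hZ, hb]
    exact mul_le_mul_of_nonneg_left (mul_le_mul_of_nonneg_left hy (by positivity)) hr0.le
  have hAB : r * (u x * v x * (Real.sqrt A * Real.sqrt B)) ≤ Z := hm _ (by linarith)
  have t1 : |xd u x * pd i v x| ≤ n * Z := by
    rw [abs_mul]
    calc |xd u x| * |pd i v x| ≤ (∑ j : Fin n, r * (u x * Real.sqrt A)) * (v x * Real.sqrt B) := by
          refine mul_le_mul ((Finset.abs_sum_le_sum_abs _ _).trans (Finset.sum_le_sum fun j _ => ?_))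
            (hdv i) (abs_nonneg _) (by positivity)
          rw [abs_mul]
          exact mul_le_mul (hxi j) (hdu j) (abs_nonneg _) hr0.le
      _ = n * (r * (u x * v x * (Real.sqrt A * Real.sqrt B))) := by simp; ring
      _ ≤ n * Z := mul_le_mul_of_nonneg_left hAB (Nat.cast_nonneg n)
  have t2 : |xd v x * pd i u x| ≤ n * Z := by
    rw [abs_mul]
    calc |xd v x| * |pd i u x| ≤ (∑ j : Fin n, r * (v x * Real.sqrt B)) * (u x * Real.sqrt A) := by
          refine mul_le_mul ((Finset.abs_sum_le_sum_abs _ _).trans (Finset.sum_le_sum fun j _ => ?_))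
            (hdu i) (abs_nonneg _) (by positivity)
          rw [abs_mul]
          exact mul_le_mul (hxi j) (hdv j) (abs_nonneg _) hr0.le
      _ = n * (r * (u x * v x * (Real.sqrt A * Real.sqrt B))) := by simp; ring
      _ ≤ n * Z := mul_le_mul_of_nonneg_left hAB (Nat.cast_nonneg n)
  have t3 : |dd u v x * x i| ≤ n * Z := by
    rw [abs_mul]
    calc |dd u v x| * |x i|
        ≤ (∑ j : Fin n, u x * Real.sqrt A * (v x * Real.sqrt B)) * r := by
          refine mul_le_mul ((Finset.abs_sum_le_sum_abs _ _).trans (Finset.sum_le_sum fun j _ => ?_))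
            (hxi i) (abs_nonneg _) (by positivity)
          rw [abs_mul]
          exact mul_le_mul (hdu j) (hdv j) (abs_nonneg _) (by positivity)
      _ = n * (r * (u x * v x * (Real.sqrt A * Real.sqrt B))) := by simp; ring
      _ ≤ n * Z := mul_le_mul_of_nonneg_left hAB (Nat.cast_nonneg n)
  have hp1 : pot σ p v x = u x * v x * (jw σ p u v x / (p + 1)) := by
    rw [pot, jw, Real.rpow_add hv, Real.rpow_one]; field_simp
  have hq1 : pot τ q u x = u x * v x * (jw τ q v u x / (q + 1)) := by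
    rw [pot, jw, Real.rpow_add hu, Real.rpow_one]; field_simp
  have t4 : |x i * (pot σ p v x + pot τ q u x)| ≤ 2 * Z := by
    rw [abs_mul, hp1, hq1, ← mul_add, abs_of_nonneg (a := _ * _) (by positivity)]
    have e1 : jw σ p u v x / (p + 1) ≤ jw σ p u v x := div_le_self hs.le (by linarith)
    have e2 : jw τ q v u x / (q + 1) ≤ jw τ q v u x := div_le_self ht.le (by linarith)
    calc |x i| * (u x * v x * (jw σ p u v x / (p + 1) + jw τ q v u x / (q + 1)))
        ≤ r * (u x * v x * (jw σ p u v x / (p + 1) + jw τ q v u x / (q + 1))) :=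
          mul_le_mul_of_nonneg_right (hxi i) (by positivity)
      _ ≤ Z := hm _ (by linarith)
      _ ≤ 2 * Z := by
          have : 0 ≤ Z := (by positivity : (0:ℝ) ≤ r * (u x * v x * 0)).trans (hm 0 (by positivity))
          linarith
  have hone : ∀ y : ℝ, y ≤ r * (y ^ 2 + (sqn x)⁻¹) := fun y => by
    have e1 : r ^ 2 * (sqn x)⁻¹ = 1 := by
      rw [hr, Real.sq_sqrt (sqn_nonneg x), mul_inv_cancel₀ (sqn_pos hx).ne']
    refine le_of_mul_le_mul_left ?_ hr0
    nlinarith [sq_nonneg (r * y - 1), e1]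
  have t5 : |a * (u x * pd i v x)| ≤ |a| * Z := by
    rw [abs_mul, abs_mul, abs_of_pos hu]
    refine mul_le_mul_of_nonneg_left ?_ (abs_nonneg a)
    calc u x * |pd i v x| ≤ u x * (v x * Real.sqrt B) := mul_le_mul_of_nonneg_left (hdv i) hu.le
      _ ≤ r * (u x * v x * (Real.sqrt B ^ 2 + (sqn x)⁻¹)) := by
          have := mul_le_mul_of_nonneg_left (hone (Real.sqrt B)) (mul_pos hu hv).le
          linarith
      _ ≤ Z := hm _ (by linarith)
  have t6 : |b * (v x * pd i u x)| ≤ |b| * Z := by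
    rw [abs_mul, abs_mul, abs_of_pos hv]
    refine mul_le_mul_of_nonneg_left ?_ (abs_nonneg b)
    calc v x * |pd i u x| ≤ v x * (u x * Real.sqrt A) := mul_le_mul_of_nonneg_left (hdu i) hv.le
      _ ≤ r * (u x * v x * (Real.sqrt A ^ 2 + (sqn x)⁻¹)) := by
          have := mul_le_mul_of_nonneg_left (hone (Real.sqrt A)) (mul_pos hu hv).le
          linarith
      _ ≤ Z := hm _ (by linarith)
  rw [← hr, ← hZ, pohField]
  refine abs_le.2 ⟨?_, ?_⟩ <;>
    linarith [abs_le.1 t1, abs_le.1 t2, abs_le.1 t3, abs_le.1 t4, abs_le.1 t5, abs_le.1 t6]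

theorem bTerm_nonneg (h : IsSolW σ τ p q u v) {x : Fin n → ℝ} (hx : x ∈ punctured n) :
    0 ≤ bTerm σ τ p q u v x := by
  have := h.pos_u x; have := h.pos_v x
  have := jw_pos h hx; have := jw_pos h.swap hx; have := sqn_pos hx
  have hA : 0 ≤ dotv (ja u x) (ja u x) := Finset.sum_nonneg fun j _ => mul_self_nonneg _
  have hB : 0 ≤ dotv (ja v x) (ja v x) := Finset.sum_nonneg fun j _ => mul_self_nonneg _
  rw [bTerm]
  positivity

/-- The gradient of the product cut-off lives on two shells. -/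
theorem pd_zcut_le {T : ℝ} (hT0 : 0 ≤ T) (hT : ∀ t, |deriv Real.smoothTransition t| ≤ T) {ρ R : ℝ}
    (hρ : 0 < ρ) (hR : 0 < R) (i : Fin n) {f : (Fin n → ℝ) → ℝ} (x : Fin n → ℝ)
    (hf : 0 ≤ f x) :
    |pd i (zcut ρ R) x| * (Real.sqrt (sqn x) * f x) ≤
      8 * T * ((shell n ρ).indicator f x + (shell n R).indicator f x) := by
  have e : pd i (zcut ρ R) x =
      pd i (inner' ρ) x * outer' R x + inner' ρ x * pd i (outer' R) x :=
    pd_mul_at (((contDiff_inner' (n := n) ρ).differentiable one_ne_zero) x)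
      (((contDiff_outer' (n := n) R).differentiable one_ne_zero) x) i
  have ha : |pd i (inner' ρ) x| * (Real.sqrt (sqn x) * f x) ≤
      8 * T * (shell n ρ).indicator f x := by
    by_cases hx : x ∈ shell n ρ
    · rw [Set.indicator_of_mem hx, ← mul_assoc]
      refine mul_le_mul_of_nonneg_right ?_ hf
      calc |pd i (inner' ρ) x| * Real.sqrt (sqn x) ≤ 4 * T / ρ * (2 * ρ) :=
            mul_le_mul (pd_inner'_bound hT0 hT hρ x i).1
              ((Real.sqrt_le_iff).2 ⟨by linarith, by rw [mul_pow]; linarith [hx.2]⟩)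
              (Real.sqrt_nonneg _) (by positivity)
        _ = 8 * T := by field_simp; ring
    · have h0 : pd i (inner' ρ) x = 0 := by
        rcases not_and_or.1 hx with hx' | hx'
        · rw [pd_inner', deriv_transition_eq_zero (Or.inl (by
            rw [sub_nonpos, div_le_one (by positivity)]; linarith)), zero_mul]
        · exact (pd_inner'_bound hT0 hT hρ x i).2 (not_le.1 hx')
      simp [Set.indicator_of_notMem hx, h0]
  have hb : |pd i (outer' R) x| * (Real.sqrt (sqn x) * f x) ≤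
      8 * T * (shell n R).indicator f x := by
    by_cases hx : x ∈ shell n R
    · rw [Set.indicator_of_mem hx, ← mul_assoc]
      refine mul_le_mul_of_nonneg_right ?_ hf
      calc |pd i (outer' R) x| * Real.sqrt (sqn x) ≤ 4 * T / R * (2 * R) :=
            mul_le_mul (pd_outer'_bound hT0 hT hR x i).1
              ((Real.sqrt_le_iff).2 ⟨by linarith, by rw [mul_pow]; linarith [hx.2]⟩)
              (Real.sqrt_nonneg _) (by positivity)
        _ = 8 * T := by field_simp; ring
    · have h0 : pd i (outer' R) x = 0 := by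
        rcases not_and_or.1 hx with hx' | hx'
        · rw [pd_outer', deriv_transition_eq_zero (Or.inr (by
            rw [le_sub_iff_add_le, ← le_sub_iff_add_le', div_le_iff₀ (by positivity)]; linarith)),
            zero_mul, neg_zero]
        · exact (pd_outer'_bound hT0 hT hR x i).2 (not_le.1 hx')
      simp [Set.indicator_of_notMem hx, h0]
  have hg : 0 ≤ Real.sqrt (sqn x) * f x := mul_nonneg (Real.sqrt_nonneg _) hf
  rw [e]
  refine le_trans (mul_le_mul_of_nonneg_right (abs_add_le _ _) hg) ?_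
  rw [abs_mul, abs_mul, add_mul, mul_add (8 * T),
    abs_of_nonneg (a := outer' R x) (Real.smoothTransition.nonneg _),
    abs_of_nonneg (a := inner' ρ x) (Real.smoothTransition.nonneg _)]
  refine add_le_add (le_trans ?_ ha) (le_trans ?_ hb)
  · exact mul_le_mul_of_nonneg_right
      (mul_le_of_le_one_right (abs_nonneg _) (Real.smoothTransition.le_one _)) hg
  · exact mul_le_mul_of_nonneg_right
      (mul_le_of_le_one_left (abs_nonneg _) (Real.smoothTransition.le_one _)) hg

/-- **Nonexistence from small boundary terms.** -/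
theorem no_solution_of_shell (hn : 3 ≤ n) (h : IsSolW σ τ p q u v) (hp : 0 < p) (hq : 0 < q)
    (hsub : (n : ℝ) - 2 < ((n : ℝ) + σ) / (p + 1) + ((n : ℝ) + τ) / (q + 1))
    (hsmall : ∀ ε, 0 < ε → ∃ ρ R, 0 < ρ ∧ ρ ≤ 1 / 2 ∧ 2 ≤ R ∧
      shellInt σ τ p q u v ρ < ε ∧ shellInt σ τ p q u v R < ε) : False := by
  obtain ⟨g, hg, hg0⟩ : ∃ g : ℝ, g = (((n : ℝ) + σ) / (p + 1) + ((n : ℝ) + τ) / (q + 1) -
      ((n : ℝ) - 2)) / 2 ∧ 0 < g := ⟨_, rfl, by linarith⟩
  obtain ⟨a, ha⟩ : ∃ a : ℝ, a = ((n : ℝ) + τ) / (q + 1) - g := ⟨_, rfl⟩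
  obtain ⟨b, hb⟩ : ∃ b : ℝ, b = ((n : ℝ) + σ) / (p + 1) - g := ⟨_, rfl⟩
  have hab : a + b = (n : ℝ) - 2 := by rw [ha, hb, hg]; ring
  set X := pohField σ τ p q a b u v with hX
  set D := fun x : Fin n → ℝ =>
    g * (rw' σ x * v x ^ (p + 1)) + g * (rw' τ x * u x ^ (q + 1)) with hD
  have hdiv : ∀ x ∈ punctured n, ∑ i, pd i (X i) x = D x := fun x hx => by
    rw [div_pohField h hp hq hab hx, hD, ha, hb, sub_sub_cancel, sub_sub_cancel]
  have hDpos : ∀ x ∈ punctured n, 0 < D x := fun x hx =>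
    add_pos (mul_pos hg0 (mul_pos (rw'_pos hx σ) (Real.rpow_pos_of_pos (h.pos_v x) _)))
      (mul_pos hg0 (mul_pos (rw'_pos hx τ) (Real.rpow_pos_of_pos (h.pos_u x) _)))
  have hDc : ContinuousOn D (punctured n) :=
    (continuousOn_const.mul (contDiffOn_src h.smooth_v h.pos_v).continuousOn).add
      (continuousOn_const.mul (contDiffOn_src h.smooth_u h.pos_u).continuousOn)
  -- a fixed ball where the cut-offs are one
  set x₀ : Fin n → ℝ := Pi.single (⟨0, by omega⟩ : Fin n) 1 with hx₀
  have hs₀ : sqn x₀ = 1 := by simp [sqn, hx₀, Pi.single_apply]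
  have hx₀Ω : x₀ ∈ punctured n := fun h0 => by
    rw [Set.mem_singleton_iff.1 h0] at hs₀; simp [sqn] at hs₀
  obtain ⟨d, hd, hdD⟩ := Metric.continuousAt_iff.1
    (hDc.continuousAt (isOpen_punctured.mem_nhds hx₀Ω)) (D x₀ / 2) (by linarith [hDpos x₀ hx₀Ω])
  obtain ⟨d', hd', hds⟩ := Metric.continuousAt_iff.1
    ((contDiff_sqn (n := n)).continuous.continuousAt (x := x₀)) (1 / 2) (by norm_num)
  set r := min d d' / 2 with hr_def
  have hr : 0 < r := by positivity
  set U := Metric.closedBall x₀ r with hU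
  have hUb : ∀ x ∈ U, dist x x₀ < d ∧ dist x x₀ < d' := fun x hx => by
    have h : dist x x₀ ≤ min d d' / 2 := Metric.mem_closedBall.1 hx
    exact ⟨by linarith [min_le_left d d'], by linarith [min_le_right d d']⟩
  set m := D x₀ / 2 * (volume U).toReal with hm_def
  have hm : 0 < m := mul_pos (by linarith [hDpos x₀ hx₀Ω])
    (ENNReal.toReal_pos (Metric.measure_closedBall_pos volume x₀ hr).ne'
      (isCompact_closedBall x₀ r).measure_lt_top.ne)
  obtain ⟨T, hT0, hT⟩ := deriv_transition_bdd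
  obtain ⟨L, hL⟩ : ∃ L : ℝ, L = (3 * n + 2 + |a| + |b|) * (8 * T) := ⟨_, rfl⟩
  have hL0 : 0 ≤ L := by rw [hL]; positivity
  obtain ⟨ρ, R, hρ, hρ1, hR2, hIρ, hIR⟩ := hsmall (m / (2 * (n * L + 1))) (by positivity)
  have hR : 0 < R := by linarith
  obtain ⟨hKc, hKΩ, hzK, hz, hz01⟩ := zcut_props (n := n) hρ hR
  have hts : tsupport (zcut (n := n) ρ R) ⊆ annulus n ρ R :=
    closure_minimal (fun x (hx : zcut ρ R x ≠ 0) => by_contra fun h' => hx (hzK x h'))
      hKc.isClosed
  have iD : Integrable fun x => zcut ρ R x * D x :=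
    integrable_of_zero_off (hz.continuous.continuousOn.mul hDc) hKc hKΩ
      fun x hx => by rw [hzK x hx, zero_mul]
  have iX : ∀ i, Integrable fun x => pd i (zcut ρ R) x * X i x := fun i =>
    integrable_of_zero_off ((continuous_pd hz i).continuousOn.mul
      (contDiffOn_pohField h a b i).continuousOn) hKc hKΩ
      fun x hx => by rw [pd_eq_zero_off (fun h' => hx (hts h')), zero_mul]
  have hint := weak_div isOpen_punctured hz (HasCompactSupport.intro hKc hzK) (hts.trans hKΩ)
    (fun i => contDiffOn_pohField (σ := σ) (τ := τ) (p := p) (q := q) h a b i)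
  have he : ∀ x, zcut ρ R x * ∑ i, pd i (X i) x = zcut ρ R x * D x := fun x => by
    by_cases hx : x ∈ punctured n
    · rw [hdiv x hx]
    · rw [hzK x fun h' => hx (hKΩ h'), zero_mul, zero_mul]
  simp only [← hX, he] at hint
  rw [integral_add iD (integrable_finsetSum _ fun i _ => iX i),
    integral_finsetSum _ fun i _ => iX i] at hint
  have iS : ∀ {R : ℝ}, 0 < R → Integrable ((shell n R).indicator (bTerm σ τ p q u v)) :=
    fun hR => (((continuousOn_bTerm h).mono (shell_subset hR)).integrableOn_compact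
      (isCompact_shell _)).integrable_indicator (isCompact_shell _).measurableSet
  have hXi : ∀ i, -(∫ x, pd i (zcut ρ R) x * X i x) ≤
      L * (shellInt σ τ p q u v ρ + shellInt σ τ p q u v R) := fun i => by
    have hr' : L * (shellInt σ τ p q u v ρ + shellInt σ τ p q u v R) =
        ∫ x, L * ((shell n ρ).indicator (bTerm σ τ p q u v) x +
          (shell n R).indicator (bTerm σ τ p q u v) x) := by
      rw [integral_const_mul, integral_add (iS hρ) (iS hR),
        integral_indicator (isCompact_shell _).measurableSet,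
        integral_indicator (isCompact_shell _).measurableSet, shellInt, shellInt]
    rw [hr', ← integral_neg]
    refine integral_mono (iX i).neg (((iS hρ).add (iS hR)).const_mul L) fun x => ?_
    by_cases hx : x ∈ punctured n
    · have hb0 := bTerm_nonneg h hx
      calc -(pd i (zcut ρ R) x * X i x) ≤ |pd i (zcut ρ R) x| * |X i x| := by
            rw [← abs_mul]; exact neg_le_abs _
        _ ≤ |pd i (zcut ρ R) x| *
              ((3 * n + 2 + |a| + |b|) * (Real.sqrt (sqn x) * bTerm σ τ p q u v x)) :=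
            mul_le_mul_of_nonneg_left (pohField_le h hp hq a b hx i) (abs_nonneg _)
        _ = (3 * n + 2 + |a| + |b|) *
              (|pd i (zcut ρ R) x| * (Real.sqrt (sqn x) * bTerm σ τ p q u v x)) := by ring
        _ ≤ (3 * n + 2 + |a| + |b|) * (8 * T * ((shell n ρ).indicator (bTerm σ τ p q u v) x +
              (shell n R).indicator (bTerm σ τ p q u v) x)) :=
            mul_le_mul_of_nonneg_left (pd_zcut_le hT0 hT hρ hR i x hb0) (by positivity)
        _ = _ := by rw [hL]; ring
    · rw [Set.indicator_of_notMem fun h' => hx (shell_subset hρ h'),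
        Set.indicator_of_notMem fun h' => hx (shell_subset hR h'),
        pd_eq_zero_off fun h' => hx (hKΩ (hts h'))]
      simp
  have hsum := Finset.sum_le_sum (s := Finset.univ) fun i _ => hXi i
  rw [Finset.sum_neg_distrib, Finset.sum_const, Finset.card_univ, Fintype.card_fin,
    nsmul_eq_mul] at hsum
  have hone : ∀ x ∈ U, zcut ρ R x = 1 := fun x hx => by
    have h := abs_lt.1 (by simpa [Real.dist_eq, hs₀] using hds (hUb x hx).2)
    have hρ0' : 0 < ρ ^ 2 := pow_pos hρ 2
    have e1 : inner' ρ x = 1 := Real.smoothTransition.one_of_one_le (by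
      rw [le_sub_iff_add_le, le_div_iff₀ hρ0']; nlinarith)
    have e2 : outer' R x = 1 := Real.smoothTransition.one_of_one_le (by
      rw [le_sub_iff_add_le, ← le_sub_iff_add_le', div_le_iff₀ (by positivity)]; nlinarith)
    rw [zcut, e1, e2, one_mul]
  have hlow : m ≤ ∫ x, zcut ρ R x * D x := by
    calc m = ∫ _ in U, D x₀ / 2 := by
          rw [setIntegral_const, smul_eq_mul, Measure.real, hm_def, mul_comm]
      _ ≤ ∫ x in U, zcut ρ R x * D x := by
          refine setIntegral_mono_on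
            (integrableOn_const (isCompact_closedBall x₀ r).measure_lt_top.ne)
            iD.integrableOn measurableSet_closedBall fun x hx => ?_
          rw [hone x hx, one_mul]
          linarith [abs_lt.1 (by simpa [Real.dist_eq] using hdD (hUb x hx).1)]
      _ ≤ _ := setIntegral_le_integral iD (Eventually.of_forall fun x => by
          by_cases hx : x ∈ annulus n ρ R
          · exact mul_nonneg (hz01 x).1 (hDpos x (hKΩ hx)).le
          · simp [hzK x hx])
  have hnL : 0 ≤ (n : ℝ) * L := by positivity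
  have h1 : m ≤ (n : ℝ) * L * (2 * (m / (2 * (n * L + 1)))) := by
    nlinarith [mul_le_mul_of_nonneg_left (add_le_add hIρ.le hIR.le) hnL]
  have h2 : (n : ℝ) * L * (2 * (m / (2 * (n * L + 1)))) < m := by
    rw [← mul_div_assoc, ← mul_div_assoc, div_lt_iff₀ (by positivity)]
    linarith
  linarith

end Vale.Agent.P100.Weighted
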