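import Vale.Agent.P100.Weighted.Shell
import Vale.Agent.P100.Weighted.Pohozaev
import Vale.Agent.P100.Large.Main
import Vale.Agent.P100.FamilyTwo.Main

/-!
# P100: nonexistence for the weighted system

A certificate gives the shell bounds, hence the boundary terms of the Pohozaev identity vanish.
-/

namespace Vale.Agent.P100.Weighted

open Set Filter Topology

variable {n : ℕ} {σ τ p q A B : ℝ} {u v : (Fin n → ℝ) → ℝ}

theorem expU_add_gt (hp : 0 < p) (hq : 0 < q) (hpq : 1 < p * q)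
    (hsub : (n : ℝ) - 2 < ((n : ℝ) + σ) / (p + 1) + ((n : ℝ) + τ) / (q + 1)) :
    (n : ℝ) < expU σ τ p q + expU τ σ q p + 2 := by
  rw [div_add_div _ _ (by linarith) (by linarith), lt_div_iff₀ (by positivity)] at hsub
  rw [expU, expU, mul_comm q p, ← add_div, ← sub_lt_iff_lt_add, lt_div_iff₀ (by linarith)]
  nlinarith

/-- A shell step with weights in `[0, 1]` close to `1` excludes solutions. -/
theorem no_solution_of_step (hn : 3 ≤ n) (h : IsSolW σ τ p q u v) (hp : 0 < p) (hq : 0 < q)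
    (hpq : 1 < p * q) (hA : 0 ≤ A) (hA' : A ≤ 1) (hB : 0 ≤ B) (hB' : B ≤ 1)
    (hγ : (1 - A) * (p + 1) + (1 - B) * (q + 1) ≤ p * q - 1)
    (hsub : (n : ℝ) - 2 < ((n : ℝ) + σ) / (p + 1) + ((n : ℝ) + τ) / (q + 1))
    (hstep : StepBound σ τ p q A B u v) : False := by
  obtain ⟨C, hC⟩ := shellInt_le h hpq hp hq hA hA' hB hB' hγ hstep
  obtain ⟨C', hC'⟩ := shellInt_small h hstep
  refine no_solution_of_shell hn h hp hq hsub fun ε hε => ?_
  have hneg := expU_add_gt hp hq hpq hsub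
  have hfar : Tendsto (fun R : ℝ => C * R ^ ((n : ℝ) - (expU σ τ p q + expU τ σ q p + 2)))
      atTop (𝓝 0) := by
    have := (tendsto_rpow_neg_atTop
      (y := expU σ τ p q + expU τ σ q p + 2 - (n : ℝ)) (by linarith)).const_mul C
    simpa [neg_sub] using this
  have hnear : Tendsto (fun R : ℝ => C' * R ^ (n - 2)) (𝓝[>] 0) (𝓝 0) := by
    refine Tendsto.mono_left ?_ nhdsWithin_le_nhds
    have := ((continuous_pow (M := ℝ) (n - 2)).const_mul C').tendsto 0
    simpa [zero_pow (by omega : n - 2 ≠ 0)] using this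
  obtain ⟨R, hR, hR2⟩ :=
    ((hfar.eventually (eventually_lt_nhds hε)).and (eventually_ge_atTop 2)).exists
  obtain ⟨ρ, hρ, hρ1, hρ0⟩ := ((hnear.eventually (eventually_lt_nhds hε)).and
    ((eventually_nhdsWithin_of_eventually_nhds
      (eventually_le_nhds (by norm_num : (0 : ℝ) < 1 / 2))).and
        (eventually_mem_nhdsWithin (s := Set.Ioi (0 : ℝ))))).exists
  have hρ0' : 0 < ρ := hρ0
  refine ⟨ρ, R, hρ0', hρ1, hR2, lt_of_le_of_lt ?_ hρ, (hC R (by linarith)).trans_lt hR⟩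
  refine (hC' ρ hρ0' hρ1).trans_eq ?_
  rw [pow_sub₀ ρ hρ0'.ne' (by omega : 2 ≤ n), ← div_eq_mul_inv]

/-- A certificate with weights in `[0, 1]` close to `1` excludes solutions. -/
theorem no_solution_of_certW (hn : 3 ≤ n) (h : IsSolW σ τ p q u v) (hp : 0 < p) (hq : 0 < q)
    (hpq : 1 < p * q) (hA : 0 ≤ A) (hA' : A ≤ 1) (hB : 0 ≤ B) (hB' : B ≤ 1)
    (hγ : (1 - A) * (p + 1) + (1 - B) * (q + 1) ≤ p * q - 1)
    (hsub : (n : ℝ) - 2 < ((n : ℝ) + σ) / (p + 1) + ((n : ℝ) + τ) / (q + 1))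
    {δ : ℝ} (hδ : 0 < δ) {c : Fin 14 → ℝ} (hcert : IsCert n p q A B δ c) : False :=
  no_solution_of_step hn h hp hq hpq hA hA' hB hB' hγ hsub (shell_step h hδ hcert)

theorem no_solution_ordered (hn : 5 ≤ n) (hq : 0 < q) (hqp : q ≤ p) (hpq : 1 < p * q)
    (hsub : (n : ℝ) - 2 < ((n : ℝ) + σ) / (p + 1) + ((n : ℝ) + τ) / (q + 1))
    (hreg : 15 / 14 * ((n : ℝ) - 2) * (p * q - 1) ≤ 2 * (p + q + 2)) :
    ¬ ∃ u v : (Fin n → ℝ) → ℝ, IsSolW σ τ p q u v := by
  rintro ⟨u, v, hsol⟩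
  have hN : (5 : ℝ) ≤ n := by exact_mod_cast hn
  have hs : 0 < p + q + 2 := by linarith
  set w := (q + 1) / (p + q + 2) with hw
  set g := 1 / ((n : ℝ) - 2) with hg
  set h := (p * q - 1) / (p + q + 2) with hh
  have hw0 : 0 < w := div_pos (by linarith) hs
  have hw1 : w ≤ 1 / 2 := by rw [hw, div_le_iff₀ hs]; linarith
  have hh0 : 0 < h := div_pos (by linarith) hs
  have hg0 : 0 < g := div_pos one_pos (by linarith)
  have hh1 : h ≤ 28 / 15 * g := by
    rw [hg, mul_one_div, hh, div_le_div_iff₀ hs (by linarith)]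
    linarith
  have hp' : p = (1 - w + h) / w := by rw [hw, hh]; field_simp; ring
  have hq' : q = (w + h) / (1 - w) := by
    rw [hw, hh, one_sub_div hs.ne', ← add_div, div_div_div_cancel_right₀ hs.ne',
      eq_div_iff (by linarith)]
    ring
  have hw' : 1 - w = (p + 1) / (p + q + 2) := by rw [hw, one_sub_div hs.ne']; ring
  rcases le_total h ((1 - w) * g * (4 + 7 * g) / 2 / (1 + 2 * g)) with hl | hl
  · obtain ⟨k, δ, c, hk0, hk, hk1, hδ, hc⟩ :=
      Large.exists_cert hn hw0 hw1 hg hh0 hl (p := p) (q := q) hp' hq'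
    rw [hw', hh, mul_div_assoc', div_le_div_iff_of_pos_right hs] at hk
    refine no_solution_of_certW (by omega) hsol (by linarith) hq hpq (by linarith) (by linarith)
      zero_le_one le_rfl ?_ hsub hδ hc
    linarith
  · obtain ⟨δ, c, hδ, hc⟩ :=
      FamilyTwo.exists_cert hn hw0 hw1 hg hh0.le hh1 (p := p) (q := q) hp' hq'
    have hD : 0 < 1 + 2 * g := by positivity
    have hA0 : 0 ≤ FamilyTwo.cA g := by
      have hg' : g ≤ 1 / 3 := div_le_div_of_nonneg_left one_pos.le (by norm_num) (by linarith)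
      rw [FamilyTwo.cA]
      refine div_nonneg ?_ hD.le
      simp only [FamilyTwo.qB, FamilyTwo.ee]
      nlinarith
    have e : 1 - FamilyTwo.cA g = g * (4 + 7 * g) / 2 / (1 + 2 * g) := by
      rw [FamilyTwo.cA]; simp only [FamilyTwo.qB, FamilyTwo.ee]; field_simp; ring
    have hA1 : FamilyTwo.cA g ≤ 1 := by
      have : 0 ≤ g * (4 + 7 * g) / 2 / (1 + 2 * g) := by positivity
      linarith
    have hk : (1 - FamilyTwo.cA g) * (1 - w) ≤ h := by
      rw [e]; exact le_trans (le_of_eq (by ring)) hl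
    rw [hw', hh, mul_div_assoc', div_le_div_iff_of_pos_right hs] at hk
    refine no_solution_of_certW (by omega) hsol (by linarith) hq hpq hA0 hA1
      zero_le_one le_rfl ?_ hsub hδ hc
    linarith

/-- **Nonexistence for the weighted system above `15 (n - 2) / 14`.** -/
theorem no_solution (hn : 5 ≤ n) (hp : 0 < p) (hq : 0 < q) (hpq : 1 < p * q)
    (hsub : (n : ℝ) - 2 < ((n : ℝ) + σ) / (p + 1) + ((n : ℝ) + τ) / (q + 1))
    (hreg : 15 / 14 * ((n : ℝ) - 2) * (p * q - 1) ≤ 2 * (p + q + 2)) :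
    ¬ ∃ u v : (Fin n → ℝ) → ℝ, IsSolW σ τ p q u v := by
  rcases le_total q p with h | h
  · exact no_solution_ordered hn hq h hpq hsub hreg
  · rintro ⟨u, v, huv⟩
    exact no_solution_ordered hn hp h (by rwa [mul_comm]) (by linarith)
      (by rw [mul_comm q p]; linarith) ⟨v, u, huv.swap⟩

/-- Both weights at most `-2/15` put every subcritical pair into that region. -/
theorem region_of_weights (hn : 5 ≤ n) (hp : 0 < p) (hq : 0 < q)
    (hσ : σ ≤ -2 / 15) (hτ : τ ≤ -2 / 15)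
    (hsub : (n : ℝ) - 2 < ((n : ℝ) + σ) / (p + 1) + ((n : ℝ) + τ) / (q + 1)) :
    15 / 14 * ((n : ℝ) - 2) * (p * q - 1) ≤ 2 * (p + q + 2) := by
  have hN : (5 : ℝ) ≤ n := by exact_mod_cast hn
  rw [div_add_div _ _ (by linarith) (by linarith), lt_div_iff₀ (by positivity)] at hsub
  nlinarith [mul_le_mul_of_nonneg_right hσ (by linarith : (0 : ℝ) ≤ q + 1),
    mul_le_mul_of_nonneg_right hτ (by linarith : (0 : ℝ) ≤ p + 1)]

end Vale.Agent.P100.Weighted
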