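import Vale.Agent.P100.Fields

/-!
# P100: the Hénon–Lane–Emden system

`-Δu = |x|^σ v^p`, `-Δv = |x|^τ u^q` off the origin. `js' = |x|^σ v^p / u`.
-/

namespace Vale.Agent.P100.Weighted

open Set MeasureTheory
open Vale.Agent.P252 (pd)

variable {n : ℕ}

/-- The weight `|x|^σ`. -/
noncomputable def rw' (σ : ℝ) (x : Fin n → ℝ) : ℝ := sqn x ^ (σ / 2)

/-- A positive entire solution of the weighted system. -/
structure IsSolW (σ τ p q : ℝ) (u v : (Fin n → ℝ) → ℝ) : Prop where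
  smooth_u : ContDiffOn ℝ 2 u (punctured n)
  smooth_v : ContDiffOn ℝ 2 v (punctured n)
  cont_u : Continuous u
  cont_v : Continuous v
  pos_u : ∀ x, 0 < u x
  pos_v : ∀ x, 0 < v x
  eq_u : ∀ x ∈ punctured n, lap u x = -(rw' σ x * v x ^ p)
  eq_v : ∀ x ∈ punctured n, lap v x = -(rw' τ x * u x ^ q)

/-- `|x|^σ v^p / u`. -/
noncomputable def jw (σ p : ℝ) (u v : (Fin n → ℝ) → ℝ) (x : Fin n → ℝ) : ℝ :=
  rw' σ x * v x ^ p / u x

/-- The quantity bounding the boundary terms of the Pohozaev identity. -/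
noncomputable def bTerm (σ τ p q : ℝ) (u v : (Fin n → ℝ) → ℝ) (x : Fin n → ℝ) : ℝ :=
  u x * v x * (dotv (ja u x) (ja u x) + dotv (ja v x) (ja v x) + jw σ p u v x + jw τ q v u x +
    (sqn x)⁻¹)

/-- The closed shell `R ≤ |x| ≤ 2R`. -/
def shell (n : ℕ) (R : ℝ) : Set (Fin n → ℝ) := {x | R ^ 2 ≤ sqn x ∧ sqn x ≤ 4 * R ^ 2}

/-- The integral of `bTerm` over a shell. -/
noncomputable def shellInt (σ τ p q : ℝ) (u v : (Fin n → ℝ) → ℝ) (R : ℝ) : ℝ :=
  ∫ x in shell n R, bTerm σ τ p q u v x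

end Vale.Agent.P100.Weighted
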