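import Vale.Agent.P100.Solution
import Vale.Agent.P100.Weighted.Defs

/-!
# P100: the fourteen fields along a solution of the weighted system
-/

namespace Vale.Agent.P100.Weighted

open Set Filter Topology MeasureTheory
open Vale.Agent.P252 (pd)

variable {n : ℕ} {σ τ p q A B : ℝ} {u v : (Fin n → ℝ) → ℝ}

/-- `x / |x|²`. -/
noncomputable def je (x : Fin n → ℝ) (i : Fin n) : ℝ := x i / sqn x

/-- What the weights add to the fourteen divergences. -/
def extraDivs (σ τ : ℝ) (a b e : Fin n → ℝ) (s t : ℝ) : Fin 14 → ℝ :=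
  ![0, 0, 0, 0, 0, 0, σ * (s * dotv e a), σ * (s * dotv e b), τ * (t * dotv e a),
    τ * (t * dotv e b), -σ * (s * dotv e a), -σ * (s * dotv e b), -τ * (t * dotv e a),
    -τ * (t * dotv e b)]

/-- The `k`th field along `(u, v)`. -/
noncomputable def fieldW (σ τ p q A B : ℝ) (u v : (Fin n → ℝ) → ℝ) (k : Fin 14) (i : Fin n)
    (x : Fin n → ℝ) : ℝ :=
  wt A B u v x *
    jetField (ja u x) (ja v x) (jP u x) (jP v x) (jw σ p u v x) (jw τ q v u x) i k

/-- Its weak divergence. -/
noncomputable def divW (σ τ p q A B : ℝ) (u v : (Fin n → ℝ) → ℝ) (k : Fin 14)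
    (x : Fin n → ℝ) : ℝ :=
  wt A B u v x *
    (jetDivs p q A B (ja u x) (ja v x) (jP u x) (jP v x) (jw σ p u v x) (jw τ q v u x) k +
      extraDivs σ τ (ja u x) (ja v x) (je x) (jw σ p u v x) (jw τ q v u x) k)

theorem rw'_pos {x : Fin n → ℝ} (hx : x ∈ punctured n) (σ : ℝ) : 0 < rw' σ x :=
  Real.rpow_pos_of_pos (sqn_pos hx) _

theorem IsSolW.swap (h : IsSolW σ τ p q u v) : IsSolW τ σ q p v u :=
  ⟨h.smooth_v, h.smooth_u, h.cont_v, h.cont_u, h.pos_v, h.pos_u, h.eq_v, h.eq_u⟩

theorem contDiffOn_rw' (σ : ℝ) : ContDiffOn ℝ 1 (rw' σ) (punctured n) :=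
  contDiff_sqn.contDiffOn.rpow_const_of_ne fun _ hx => (sqn_pos hx).ne'

theorem pd_rw' {x : Fin n → ℝ} (hx : x ∈ punctured n) (σ : ℝ) (i : Fin n) :
    pd i (rw' σ) x = rw' σ x * (σ * je x i) := by
  change pd i (fun y => sqn y ^ (σ / 2)) x = _
  rw [pd_rpow_at (diffAt contDiff_sqn.contDiffOn hx) (sqn_pos hx), pd_sqn]
  simp only [rw', je]
  ring

theorem contDiffOn_src (hv : ContDiffOn ℝ 2 v (punctured n)) (hpv : ∀ x, 0 < v x) :
    ContDiffOn ℝ 1 (fun y => rw' σ y * v y ^ p) (punctured n) :=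
  (contDiffOn_rw' σ).mul ((hv.of_le one_le_two).rpow_const_of_ne fun x _ => (hpv x).ne')

theorem pd_src (hv : ContDiffOn ℝ 2 v (punctured n)) (hpv : ∀ x, 0 < v x) {x : Fin n → ℝ}
    (hx : x ∈ punctured n) (i : Fin n) :
    pd i (fun y => rw' σ y * v y ^ p) x =
      rw' σ x * v x ^ p * (1 * (p * ja v x i + σ * je x i)) := by
  have h1 := diffAt (hv.of_le one_le_two) hx
  rw [pd_mul_at (diffAt (contDiffOn_rw' σ) hx) (h1.rpow_const (Or.inl (hpv x).ne')), pd_rw' hx,
    pd_rpow_at h1 (hpv x)]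
  simp only [ja]
  ring

theorem contDiffOn_jw (hu : ContDiffOn ℝ 2 u (punctured n)) (hv : ContDiffOn ℝ 2 v (punctured n))
    (hpu : ∀ x, 0 < u x) (hpv : ∀ x, 0 < v x) :
    ContDiffOn ℝ 1 (jw σ p u v) (punctured n) :=
  (contDiffOn_src hv hpv).div (hu.of_le one_le_two) fun x _ => (hpu x).ne'

theorem pd_jw (hu : ContDiffOn ℝ 2 u (punctured n)) (hv : ContDiffOn ℝ 2 v (punctured n))
    (hpu : ∀ x, 0 < u x) (hpv : ∀ x, 0 < v x) {x : Fin n → ℝ} (hx : x ∈ punctured n)
    (i : Fin n) :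
    pd i (jw σ p u v) x = jw σ p u v x * (p * ja v x i - ja u x i + σ * je x i) := by
  change pd i (fun y => rw' σ y * v y ^ p / u y) x = _
  rw [pd_div_at (diffAt (contDiffOn_src hv hpv) hx) (diffAt (hu.of_le one_le_two) hx) (hpu x).ne',
    pd_src hv hpv hx]
  simp only [jw, ja]
  ring

theorem contDiffOn_wt' (h : IsSolW σ τ p q u v) :
    ContDiffOn ℝ 1 (wt A B u v) (punctured n) :=
  ((h.smooth_u.of_le one_le_two).rpow_const_of_ne fun x _ => (h.pos_u x).ne').mul
    ((h.smooth_v.of_le one_le_two).rpow_const_of_ne fun x _ => (h.pos_v x).ne')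

theorem pd_wt' (h : IsSolW σ τ p q u v) {x : Fin n → ℝ} (hx : x ∈ punctured n) (i : Fin n) :
    pd i (wt A B u v) x = wt A B u v x * (A * ja u x i + B * ja v x i) := by
  have h1 := diffAt (h.smooth_u.of_le one_le_two) hx
  have h2 := diffAt (h.smooth_v.of_le one_le_two) hx
  change pd i (fun y => u y ^ A * v y ^ B) x = _
  rw [pd_mul_at (h1.rpow_const (Or.inl (h.pos_u x).ne'))
      (h2.rpow_const (Or.inl (h.pos_v x).ne')), pd_rpow_at h1 (h.pos_u x),
    pd_rpow_at h2 (h.pos_v x)]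
  simp only [wt, ja]
  ring

/-- Every field of a certificate has weak divergence `divW`. -/
theorem good_field' (h : IsSolW σ τ p q u v) (k : Fin 14) :
    GoodField (fieldW σ τ p q A B u v k) (divW σ τ p q A B u v k) := by
  have hW := contDiffOn_wt' (A := A) (B := B) h
  have hW' := fun x (hx : x ∈ punctured n) => pd_wt' (A := A) (B := B) h hx
  have hu := contDiffOn_ja h.smooth_u h.pos_u
  have hv := contDiffOn_ja h.smooth_v h.pos_v
  have fw : ∀ (f : (Fin n → ℝ) → ℝ) (df : (Fin n → ℝ) → Fin n → ℝ),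
      ContDiffOn ℝ 1 f (punctured n) → (∀ x ∈ punctured n, ∀ i, pd i f x = df x i) →
      GoodField (fun i x => wt A B u v x * (f x * ja u x i))
        (fun x => wt A B u v x * divFW A B (ja u x) (ja v x) (f x) (df x) (ja u x)
          (-jw σ p u v x - dotv (ja u x) (ja u x))) ∧
      GoodField (fun i x => wt A B u v x * (f x * ja v x i))
        (fun x => wt A B u v x * divFW A B (ja u x) (ja v x) (f x) (df x) (ja v x)
          (-jw τ q v u x - dotv (ja v x) (ja v x))) := fun f df hf hf' =>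
    ⟨(good_fw hW hf hu hW' hf' fun x hx => div_ja h.smooth_u h.pos_u h.eq_u hx).congr
        (fun _ _ _ => rfl) (fun x _ => by simp only [divFW, dotv_lin, jw]),
      (good_fw hW hf hv hW' hf' fun x hx => div_ja h.smooth_v h.pos_v h.eq_v hx).congr
        (fun _ _ _ => rfl) (fun x _ => by simp only [divFW, dotv_lin, jw])⟩
  have cd : ∀ {f g : (Fin n → ℝ) → ℝ}, ContDiffOn ℝ 2 f (punctured n) → (∀ x, 0 < f x) →
      ContDiffOn ℝ 2 g (punctured n) → (∀ x, 0 < g x) →
      ContDiffOn ℝ 1 (fun y => dotv (ja f y) (ja g y)) (punctured n) := fun hf hfp hg hgp =>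
    ContDiffOn.sum fun j _ => (contDiffOn_ja hf hfp j).mul (contDiffOn_ja hg hgp j)
  have f1 := fw (fun y => dotv (ja u y) (ja u y))
    (fun x i => 2 * (matv (jP u x) (ja u x) i - dotv (ja u x) (ja u x) * ja u x i))
    (cd h.smooth_u h.pos_u h.smooth_u h.pos_u) fun x hx i => by
      rw [pd_dot h.smooth_u h.pos_u h.smooth_u h.pos_u hx]; ring
  have f2 := fw (fun y => dotv (ja v y) (ja v y))
    (fun x i => 2 * (matv (jP v x) (ja v x) i - dotv (ja v x) (ja v x) * ja v x i))
    (cd h.smooth_v h.pos_v h.smooth_v h.pos_v) fun x hx i => by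
      rw [pd_dot h.smooth_v h.pos_v h.smooth_v h.pos_v hx]; ring
  have f3 := fw (fun y => dotv (ja u y) (ja v y))
    (fun x i => matv (jP u x) (ja v x) i + matv (jP v x) (ja u x) i -
      dotv (ja u x) (ja v x) * (ja u x i + ja v x i))
    (cd h.smooth_u h.pos_u h.smooth_v h.pos_v)
    fun x hx => pd_dot h.smooth_u h.pos_u h.smooth_v h.pos_v hx
  have f4 := fw (jw σ p u v)
    (fun x i => jw σ p u v x * (p * ja v x i - ja u x i + σ * je x i))
    (contDiffOn_jw h.smooth_u h.smooth_v h.pos_u h.pos_v)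
    fun x hx => pd_jw h.smooth_u h.smooth_v h.pos_u h.pos_v hx
  have f5 := fw (jw τ q v u)
    (fun x i => jw τ q v u x * (q * ja u x i - ja v x i + τ * je x i))
    (contDiffOn_jw h.smooth_v h.smooth_u h.pos_v h.pos_u)
    fun x hx => pd_jw h.smooth_v h.smooth_u h.pos_v h.pos_u hx
  have ku := contDiffOn_src (σ := σ) (p := p) h.smooth_v h.pos_v
  have kv := contDiffOn_src (σ := τ) (p := q) h.smooth_u h.pos_u
  have ku' := fun x (hx : x ∈ punctured n) => pd_src (σ := σ) (p := p) h.smooth_v h.pos_v hx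
  have kv' := fun x (hx : x ∈ punctured n) => pd_src (σ := τ) (p := q) h.smooth_u h.pos_u hx
  have h1 := good_hess h.smooth_u h.pos_u h.smooth_u h.pos_u hW hW' ku ku' h.eq_u
  have h2 := good_hess h.smooth_u h.pos_u h.smooth_v h.pos_v hW hW' ku ku' h.eq_u
  have h3 := good_hess h.smooth_v h.pos_v h.smooth_u h.pos_u hW hW' kv kv' h.eq_v
  have h4 := good_hess h.smooth_v h.pos_v h.smooth_v h.pos_v hW hW' kv kv' h.eq_v
  simp only [dotv_lin] at h1 h2 h3 h4
  have dt : ∀ (s α β : ℝ) (a b e w : Fin n → ℝ),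
      dotv (fun i => s * (α * a i - b i + β * e i)) w =
        s * (α * dotv a w) - s * dotv b w + β * (s * dotv e w) := fun s α β a b e w => by
    simp only [dotv, Finset.mul_sum, ← Finset.sum_sub_distrib, ← Finset.sum_add_distrib]
    exact Finset.sum_congr rfl fun i _ => by ring
  have dt0 : ∀ (s α : ℝ) (a b w : Fin n → ℝ),
      dotv (fun i => s * (α * a i - b i)) w = s * (α * dotv a w) - s * dotv b w :=
    fun s α a b w => by
      simp only [dotv, Finset.mul_sum, ← Finset.sum_sub_distrib]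
      exact Finset.sum_congr rfl fun i _ => by ring
  fin_cases k
  · exact f1.1.congr (fun _ _ _ => rfl) fun x _ => by simp [divW, jetDivs, extraDivs]
  · exact f1.2.congr (fun _ _ _ => rfl) fun x _ => by simp [divW, jetDivs, extraDivs]
  · exact f2.1.congr (fun _ _ _ => rfl) fun x _ => by simp [divW, jetDivs, extraDivs]
  · exact f2.2.congr (fun _ _ _ => rfl) fun x _ => by simp [divW, jetDivs, extraDivs]
  · exact f3.1.congr (fun _ _ _ => rfl) fun x _ => by simp [divW, jetDivs, extraDivs]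
  · exact f3.2.congr (fun _ _ _ => rfl) fun x _ => by simp [divW, jetDivs, extraDivs]
  · exact f4.1.congr (fun _ _ _ => rfl) fun x _ => by
      simp [divW, jetDivs, extraDivs, divFW, dt, dt0]; left; ring
  · exact f4.2.congr (fun _ _ _ => rfl) fun x _ => by
      simp [divW, jetDivs, extraDivs, divFW, dt, dt0]; left; ring
  · exact f5.1.congr (fun _ _ _ => rfl) fun x _ => by
      simp [divW, jetDivs, extraDivs, divFW, dt, dt0]; left; ring
  · exact f5.2.congr (fun _ _ _ => rfl) fun x _ => by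
      simp [divW, jetDivs, extraDivs, divFW, dt, dt0]; left; ring
  · exact h1.congr (fun _ _ _ => rfl) fun x _ => by
      simp [divW, jetDivs, extraDivs, jw, dotv_lin]; left; ring
  · exact h2.congr (fun _ _ _ => rfl) fun x _ => by
      simp [divW, jetDivs, extraDivs, jw, dotv_lin]; left; ring
  · exact h3.congr (fun _ _ _ => rfl) fun x _ => by
      simp [divW, jetDivs, extraDivs, jw, dotv_lin]; left; ring
  · exact h4.congr (fun _ _ _ => rfl) fun x _ => by
      simp [divW, jetDivs, extraDivs, jw, dotv_lin]; left; ring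

end Vale.Agent.P100.Weighted
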