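import Vale.Agent.P100.Assembly
import Vale.Agent.P100.Weighted.Fields

/-!
# P100: the scale exact energy bound of a certificate for the weighted system

On the shell `R ≤ |x| ≤ 2R` a certificate gives `∫ W G ≤ C R^(n - D)`, with
`D = A α + B β + 4` and `α`, `β` the scaling exponents of the weighted system.
-/

namespace Vale.Agent.P100.Weighted

open Set Filter Topology MeasureTheory
open Vale.Agent.P252 (pd)

variable {n : ℕ} {σ τ p q A B : ℝ} {u v : (Fin n → ℝ) → ℝ}

/-- The scaling exponent of `u`. -/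
noncomputable def expU (σ τ p q : ℝ) : ℝ := ((2 + σ) + p * (2 + τ)) / (p * q - 1)

/-- The degree of the energy. -/
noncomputable def degW (σ τ p q A B : ℝ) : ℝ :=
  A * expU σ τ p q + B * expU τ σ q p + 4

/-- The density controlled by a certificate. -/
noncomputable def densW (σ τ p q A B : ℝ) (u v : (Fin n → ℝ) → ℝ) (x : Fin n → ℝ) : ℝ :=
  wt A B u v x * energy (ja u x) (ja v x) (jP u x) (jP v x) (jw σ p u v x) (jw τ q v u x)

/-- The field of a certificate. -/
noncomputable def certW (σ τ p q A B : ℝ) (u v : (Fin n → ℝ) → ℝ) (c : Fin 14 → ℝ) (i : Fin n)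
    (x : Fin n → ℝ) : ℝ :=
  ∑ k, c k * fieldW σ τ p q A B u v k i x

/-- Its weak divergence. -/
noncomputable def certDivW (σ τ p q A B : ℝ) (u v : (Fin n → ℝ) → ℝ) (c : Fin 14 → ℝ)
    (x : Fin n → ℝ) : ℝ :=
  ∑ k, c k * divW σ τ p q A B u v k x

theorem wt_pos' (h : IsSolW σ τ p q u v) (x : Fin n → ℝ) : 0 < wt A B u v x :=
  mul_pos (Real.rpow_pos_of_pos (h.pos_u x) _) (Real.rpow_pos_of_pos (h.pos_v x) _)

theorem jw_pos (h : IsSolW σ τ p q u v) {x : Fin n → ℝ} (hx : x ∈ punctured n) :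
    0 < jw σ p u v x :=
  div_pos (mul_pos (rw'_pos hx σ) (Real.rpow_pos_of_pos (h.pos_v x) _)) (h.pos_u x)

theorem energy_nonneg' (a b : Fin n → ℝ) (P Q : Fin n → Fin n → ℝ) (s t : ℝ) :
    0 ≤ energy a b P Q s t :=
  (sq_nonneg _).trans (energy_ge a b P Q s t).1

theorem densW_nonneg (h : IsSolW σ τ p q u v) (x : Fin n → ℝ) :
    0 ≤ densW σ τ p q A B u v x :=
  mul_nonneg (wt_pos' h x).le (energy_nonneg' _ _ _ _ _ _)

theorem continuousOn_densW (h : IsSolW σ τ p q u v) :
    ContinuousOn (densW σ τ p q A B u v) (punctured n) := by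
  have hO := isOpen_punctured (n := n)
  have ca := fun i => (contDiffOn_ja h.smooth_u h.pos_u i).continuousOn
  have cb := fun i => (contDiffOn_ja h.smooth_v h.pos_v i).continuousOn
  have cP : ∀ {f : (Fin n → ℝ) → ℝ}, ContDiffOn ℝ 2 f (punctured n) → (∀ x, 0 < f x) →
      ∀ i j, ContinuousOn (fun x => jP f x i j) (punctured n) := fun hf hp i j =>
    (((contDiffOn_pd hO hf j).continuousOn_fderiv_of_isOpen hO le_rfl).clm_apply
      continuousOn_const).div (hf.continuousOn) fun x _ => (hp x).ne'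
  have cPP := fun {f : (Fin n → ℝ) → ℝ} (hf : ContDiffOn ℝ 2 f (punctured n))
      (hp : ∀ x, 0 < f x) => continuousOn_finsetSum Finset.univ fun i _ =>
      continuousOn_finsetSum Finset.univ fun j _ => (cP hf hp i j).mul (cP hf hp i j)
  exact (contDiffOn_wt' h).continuousOn.mul (((((
    (cPP h.smooth_u h.pos_u).add (cPP h.smooth_v h.pos_v)).add
    ((continuousOn_finsetSum Finset.univ fun i _ => (ca i).mul (ca i)).pow 2)).add
    ((continuousOn_finsetSum Finset.univ fun i _ => (cb i).mul (cb i)).pow 2)).add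
    ((contDiffOn_jw h.smooth_u h.smooth_v h.pos_u h.pos_v).continuousOn.pow 2)).add
    ((contDiffOn_jw h.smooth_v h.smooth_u h.pos_v h.pos_u).continuousOn.pow 2))

theorem sqn_je {x : Fin n → ℝ} (hx : x ∈ punctured n) : dotv (je x) (je x) = (sqn x)⁻¹ := by
  have h0 := (sqn_pos hx).ne'
  calc dotv (je x) (je x) = (∑ i, x i ^ 2) / sqn x ^ 2 := by
        simp only [dotv, je, Finset.sum_div]
        exact Finset.sum_congr rfl fun i _ => by ring
    _ = (sqn x)⁻¹ := by rw [← sqn]; field_simp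

theorem mixed_bound {e s r P d G : ℝ} (he : 0 < e) (hP : 0 ≤ P) (hd : d ^ 2 ≤ r * P)
    (hs : s ^ 2 ≤ G) (hPG : P ^ 2 ≤ G) :
    |s * d| ≤ 2 * e * G + r ^ 2 / (64 * e ^ 3) := by
  have h1 : |s * d| ≤ e * s ^ 2 + d ^ 2 / (4 * e) := by
    rw [abs_le]
    constructor <;>
      nlinarith [sq_nonneg (2 * e * s + d), sq_nonneg (2 * e * s - d),
        mul_div_cancel₀ (d ^ 2) (show 4 * e ≠ 0 by positivity)]
  have h2 : r * P / (4 * e) ≤ e * P ^ 2 + r ^ 2 / (64 * e ^ 3) := by
    have : r * P / (4 * e) = e * P ^ 2 + r ^ 2 / (64 * e ^ 3) -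
        e * (P - r / (8 * e ^ 2)) ^ 2 := by field_simp; ring
    rw [this]
    linarith [mul_nonneg he.le (sq_nonneg (P - r / (8 * e ^ 2)))]
  have h3 : d ^ 2 / (4 * e) ≤ r * P / (4 * e) :=
    div_le_div_of_nonneg_right hd (by positivity)
  nlinarith [mul_le_mul_of_nonneg_left hs he.le, mul_le_mul_of_nonneg_left hPG he.le]

/-- The weighted divergence dominates the density up to `W / |x|⁴`. -/
theorem certDivW_lower (h : IsSolW σ τ p q u v) {δ : ℝ} (hδ : 0 < δ) {c : Fin 14 → ℝ}
    (hcert : IsCert n p q A B δ c) :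
    ∃ L : ℝ, 0 ≤ L ∧ ∀ x ∈ punctured n, δ / 2 * densW σ τ p q A B u v x ≤
      certDivW σ τ p q A B u v c x + L * (wt A B u v x * (sqn x)⁻¹ ^ 2) := by
  set S := (∑ k, |c k|) * (|σ| + |τ|) + 1 with hS
  have hS0 : 0 < S := by positivity
  set e := δ / (4 * S) with he
  have he0 : 0 < e := by positivity
  refine ⟨S / (64 * e ^ 3), by positivity, fun x hx => ?_⟩
  set a := ja u x
  set b := ja v x
  set s := jw σ p u v x
  set t := jw τ q v u x
  set G := energy a b (jP u x) (jP v x) s t with hG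
  obtain ⟨hsG, htG⟩ := energy_ge a b (jP u x) (jP v x) s t
  have hP0 := dotm_self_nonneg (jP u x)
  have hQ0 := dotm_self_nonneg (jP v x)
  have haG : dotv a a ^ 2 ≤ G := by
    simp only [hG, energy]; nlinarith [sq_nonneg s, sq_nonneg t, sq_nonneg (dotv b b)]
  have hbG : dotv b b ^ 2 ≤ G := by
    simp only [hG, energy]; nlinarith [sq_nonneg s, sq_nonneg t, sq_nonneg (dotv a a)]
  have cs : ∀ y : Fin n → ℝ, dotv (je x) y ^ 2 ≤ (sqn x)⁻¹ * dotv y y := fun y => by
    rw [← sqn_je hx]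
    refine (Finset.sum_mul_sq_le_sq_mul_sq Finset.univ (je x) y).trans_eq ?_
    simp [dotv, sq]
  set M := 2 * e * G + (sqn x)⁻¹ ^ 2 / (64 * e ^ 3) with hM
  have hM0 : 0 ≤ M := by
    have := energy_nonneg' a b (jP u x) (jP v x) s t
    positivity
  have m1 : |s * dotv (je x) a| ≤ M := mixed_bound he0 (dotv_self_nonneg a) (cs a) hsG haG
  have m2 : |s * dotv (je x) b| ≤ M := mixed_bound he0 (dotv_self_nonneg b) (cs b) hsG hbG
  have m3 : |t * dotv (je x) a| ≤ M := mixed_bound he0 (dotv_self_nonneg a) (cs a) htG haG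
  have m4 : |t * dotv (je x) b| ≤ M := mixed_bound he0 (dotv_self_nonneg b) (cs b) htG hbG
  have hz : |(0 : ℝ)| ≤ (|σ| + |τ|) * M := by rw [abs_zero]; positivity
  have hb : ∀ (y γ : ℝ), |γ| ≤ |σ| + |τ| → |y| ≤ M → |γ * y| ≤ (|σ| + |τ|) * M :=
    fun y γ hγ hy => by rw [abs_mul]; exact mul_le_mul hγ hy (abs_nonneg _) (by positivity)
  have gσ : |σ| ≤ |σ| + |τ| := le_add_of_nonneg_right (abs_nonneg _)
  have gτ : |τ| ≤ |σ| + |τ| := le_add_of_nonneg_left (abs_nonneg _)
  have gσ' : |-σ| ≤ |σ| + |τ| := by rw [abs_neg]; exact gσ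
  have gτ' : |-τ| ≤ |σ| + |τ| := by rw [abs_neg]; exact gτ
  have hk : ∀ k, |extraDivs σ τ a b (je x) s t k| ≤ (|σ| + |τ|) * M := fun k => by
    fin_cases k
    exacts [hz, hz, hz, hz, hz, hz, hb _ _ gσ m1, hb _ _ gσ m2, hb _ _ gτ m3, hb _ _ gτ m4,
      hb _ _ gσ' m1, hb _ _ gσ' m2, hb _ _ gτ' m3, hb _ _ gτ' m4]
  have hsum : |∑ k, c k * extraDivs σ τ a b (je x) s t k| ≤ S * M := by
    refine (Finset.abs_sum_le_sum_abs _ _).trans ?_
    calc ∑ k, |c k * extraDivs σ τ a b (je x) s t k|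
        ≤ ∑ k, |c k| * ((|σ| + |τ|) * M) := Finset.sum_le_sum fun k _ => by
          rw [abs_mul]; exact mul_le_mul_of_nonneg_left (hk k) (abs_nonneg _)
      _ = (∑ k, |c k|) * (|σ| + |τ|) * M := by rw [← Finset.sum_mul]; ring
      _ ≤ S * M := mul_le_mul_of_nonneg_right (by rw [hS]; linarith) hM0
  have htr : ∀ {f g : (Fin n → ℝ) → ℝ} {γ r : ℝ}, lap f x = -(rw' γ x * g x ^ r) →
      ∑ i, jP f x i i = -jw γ r f g x := fun hl => by
    rw [jw, ← neg_div, ← hl]
    simp only [jP, lap, Finset.sum_div]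
  have hc := hcert a b (jP u x) (jP v x) s t
    (fun i j => by simp only [jP]; rw [pd_pd_comm isOpen_punctured h.smooth_u hx])
    (fun i j => by simp only [jP]; rw [pd_pd_comm isOpen_punctured h.smooth_v hx])
    (htr (h.eq_u x hx)) (htr (h.eq_v x hx)) (jw_pos h hx) (jw_pos h.swap hx)
  have hW := wt_pos' (A := A) (B := B) h x
  have hdiv : certDivW σ τ p q A B u v c x = wt A B u v x *
      (jetDiv p q A B c a b (jP u x) (jP v x) s t + ∑ k, c k * extraDivs σ τ a b (je x) s t k) := by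
    simp only [certDivW, divW, jetDiv, ← Finset.sum_add_distrib, Finset.mul_sum]
    exact Finset.sum_congr rfl fun k _ => by ring
  have hSe : S * (2 * e) = δ / 2 := by rw [he]; field_simp; ring
  have hlow : δ / 2 * G ≤ jetDiv p q A B c a b (jP u x) (jP v x) s t +
      (∑ k, c k * extraDivs σ τ a b (je x) s t k) + S / (64 * e ^ 3) * (sqn x)⁻¹ ^ 2 := by
    have := (abs_le.1 hsum).1
    have e2 : S * M = δ / 2 * G + S / (64 * e ^ 3) * (sqn x)⁻¹ ^ 2 := by
      rw [hM, mul_add, ← mul_assoc, hSe]; ring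
    linarith
  rw [hdiv, densW, ← hG]
  calc δ / 2 * (wt A B u v x * G) = wt A B u v x * (δ / 2 * G) := by ring
    _ ≤ wt A B u v x * _ := mul_le_mul_of_nonneg_left hlow hW.le
    _ = _ := by ring

theorem good_certW (h : IsSolW σ τ p q u v) (c : Fin 14 → ℝ) :
    GoodField (certW σ τ p q A B u v c) (certDivW σ τ p q A B u v c) :=
  GoodField.combine (fun k => good_field' (A := A) (B := B) h k) c

theorem certW_bound (h : IsSolW σ τ p q u v) (c : Fin 14 → ℝ) (x : Fin n → ℝ) (i : Fin n) :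
    certW σ τ p q A B u v c i x ^ 4 ≤
      ((∑ k, |c k|) * n) ^ 4 * (densW σ τ p q A B u v x ^ 3 * wt A B u v x) := by
  set G := energy (ja u x) (ja v x) (jP u x) (jP v x) (jw σ p u v x) (jw τ q v u x) with hG
  have hG0 : 0 ≤ G := energy_nonneg' _ _ _ _ _ _
  set m := Real.sqrt (Real.sqrt G) with hm
  have hW0 : 0 < wt A B u v x := wt_pos' h x
  have hle : |certW σ τ p q A B u v c i x| ≤ (∑ k, |c k|) * n * (wt A B u v x * m ^ 3) := by
    refine (Finset.abs_sum_le_sum_abs _ _).trans ?_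
    rw [Finset.sum_mul, Finset.sum_mul]
    refine Finset.sum_le_sum fun k _ => ?_
    rw [abs_mul, fieldW, abs_mul, abs_of_pos hW0]
    exact (mul_le_mul_of_nonneg_left (mul_le_mul_of_nonneg_left
      (jetField_bound _ _ _ _ _ _ i k) hW0.le) (abs_nonneg _)).trans_eq (by ring)
  have hm4 : m ^ 4 = G := by
    rw [show m ^ 4 = (m ^ 2) ^ 2 by ring, Real.sq_sqrt (Real.sqrt_nonneg _), Real.sq_sqrt hG0]
  calc certW σ τ p q A B u v c i x ^ 4 = |certW σ τ p q A B u v c i x| ^ 4 := (pow4_abs _).symm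
    _ ≤ ((∑ k, |c k|) * n * (wt A B u v x * m ^ 3)) ^ 4 := pow_le_pow_left₀ (abs_nonneg _) hle 4
    _ = ((∑ k, |c k|) * n) ^ 4 * ((wt A B u v x * m ^ 4) ^ 3 * wt A B u v x) := by ring
    _ = _ := by rw [hm4, densW, hG]

/-- Comparable radii. -/
theorem rpow_comparable {R X : ℝ} (hR : 0 < R) (h1 : R ^ 2 / 4 ≤ X) (h2 : X ≤ 8 * R ^ 2) (E : ℝ) :
    X ^ (E / 2) ≤ max ((1 / 4 : ℝ) ^ (E / 2)) (8 ^ (E / 2)) * R ^ E := by
  have hX : 0 < X := lt_of_lt_of_le (by positivity) h1
  have hy1 : 1 / 4 ≤ X / R ^ 2 := by rw [le_div_iff₀ (by positivity)]; linarith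
  have hy2 : X / R ^ 2 ≤ 8 := by rw [div_le_iff₀ (by positivity)]; linarith
  have e : X ^ (E / 2) = (X / R ^ 2) ^ (E / 2) * R ^ E := by
    rw [show R ^ E = (R ^ 2) ^ (E / 2) by
        rw [← Real.rpow_natCast R 2, ← Real.rpow_mul hR.le]; congr 1; push_cast; ring,
      ← Real.mul_rpow (by positivity) (by positivity), div_mul_cancel₀ _ (by positivity)]
  rw [e]
  refine mul_le_mul_of_nonneg_right ?_ (Real.rpow_nonneg hR.le _)
  rcases le_total 0 E with hE | hE
  · exact (Real.rpow_le_rpow (by positivity) hy2 (by linarith)).trans (le_max_right _ _)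
  · exact (Real.rpow_le_rpow_of_nonpos (by norm_num) hy1 (by linarith)).trans (le_max_left _ _)

/-- One cut-off step on a shell, before the weight is used. -/
def StepBound (σ τ p q A B : ℝ) (u v : (Fin n → ℝ) → ℝ) : Prop :=
  ∃ C : ℝ, 0 ≤ C ∧ ∀ (M : ℕ), 5 ≤ M → ∀ R : ℝ, 0 < R →
    ∫ x, zcut (R / 2) (2 * R) x ^ M * densW σ τ p q A B u v x ≤
      C * M ^ 4 * ∫ x, zcut (R / 2) (2 * R) x ^ (M - 4) / R ^ 4 * wt A B u v x

/-- The cut-off step for any field whose divergence dominates the density. -/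
theorem step_of_field (h : IsSolW σ τ p q u v) {δ L K : ℝ} (hδ : 0 < δ) (hL0 : 0 ≤ L)
    (hK0 : 0 ≤ K) {X : Fin n → (Fin n → ℝ) → ℝ} {D : (Fin n → ℝ) → ℝ} (hgood : GoodField X D)
    (hlow : ∀ x ∈ punctured n, δ / 2 * densW σ τ p q A B u v x ≤
      D x + L * (wt A B u v x * (sqn x)⁻¹ ^ 2))
    (hXb : ∀ x ∈ punctured n, ∀ i, X i x ^ 4 ≤ K * (densW σ τ p q A B u v x ^ 3 * wt A B u v x)) :
    StepBound σ τ p q A B u v := by
  obtain ⟨T, hT0, hT⟩ := deriv_transition_bdd
  set C₀ := (4 * (n : ℝ) / δ) ^ 3 * K * n * (10 * T) ^ 4 + L * 16 with hC₀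
  have hC₀0 : 0 ≤ C₀ := by positivity
  refine ⟨4 / δ * C₀, by positivity, fun M hM R hR => ?_⟩
  have hρ : 0 < R / 2 := by linarith
  have hR2 : 0 < 2 * R := by linarith
  obtain ⟨hKc, hKΩ, hzK, hz, hz01⟩ := zcut_props (n := n) hρ hR2
  set z := zcut (n := n) (R / 2) (2 * R) with hzdef
  have hM0 : (1 : ℝ) ≤ M := by exact_mod_cast (show 1 ≤ M by omega)
  have hpd : ∀ i x, pd i (fun y => z y ^ M) x = M * z x ^ (M - 1) * pd i z x := fun i x => by
    simp only [pd]
    rw [fderiv_fun_pow M ((hz.differentiable one_ne_zero) x)]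
    simp
  have h0 : ∀ j : ℕ, 0 < j → ∀ x ∉ annulus n (R / 2) (2 * R), z x ^ j = 0 := fun j hj x hx => by
    rw [hzK x hx, zero_pow (by omega)]
  have hzd : ∀ i x, |pd i z x| ≤ 10 * T / R := fun i x => by
    have e : pd i z x = inner' (R / 2) x * pd i (outer' (2 * R)) x +
        outer' (2 * R) x * pd i (inner' (R / 2)) x := by
      rw [hzdef, show zcut (n := n) (R / 2) (2 * R) =
        fun y => inner' (R / 2) y * outer' (2 * R) y from rfl, pd_mul_at
        (((contDiff_inner' (n := n) (R / 2)).differentiable one_ne_zero) x)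
        (((contDiff_outer' (n := n) (2 * R)).differentiable one_ne_zero) x)]
      ring
    rw [e]
    refine (abs_add_le _ _).trans ?_
    have b1 : |inner' (R / 2) x * pd i (outer' (2 * R)) x| ≤ 4 * T / (2 * R) := by
      rw [abs_mul, abs_of_nonneg (show 0 ≤ inner' (R / 2) x from Real.smoothTransition.nonneg _)]
      exact (mul_le_of_le_one_left (abs_nonneg _) (Real.smoothTransition.le_one _)).trans
        (pd_outer'_bound hT0 hT hR2 x i).1
    have b2 : |outer' (2 * R) x * pd i (inner' (R / 2)) x| ≤ 4 * T / (R / 2) := by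
      rw [abs_mul, abs_of_nonneg (show 0 ≤ outer' (2 * R) x from Real.smoothTransition.nonneg _)]
      exact (mul_le_of_le_one_left (abs_nonneg _) (Real.smoothTransition.le_one _)).trans
        (pd_inner'_bound hT0 hT hρ x i).1
    have : 4 * T / (2 * R) + 4 * T / (R / 2) = 10 * T / R := by field_simp; ring
    linarith
  set e := δ / (4 * n * M) with he
  set η := fun x => z x ^ M with hη
  have hηc : HasCompactSupport η := HasCompactSupport.intro hKc fun x hx => h0 M (by omega) x hx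
  have hηs : tsupport η ⊆ punctured n := (closure_minimal
    (fun x (hx : η x ≠ 0) => by_contra fun h' => hx (h0 M (by omega) x h')) hKc.isClosed).trans hKΩ
  have hint := hgood.weak η (hz.pow M) hηc hηs
  have iI := test_integrable (hz.pow M) hηc hηs hgood.contX hgood.contD
  have iF : Integrable fun x => z x ^ M * densW σ τ p q A B u v x :=
    integrable_of_zero_off ((hz.continuous.pow M).continuousOn.mul (continuousOn_densW h)) hKc hKΩ
      fun x hx => by rw [h0 M (by omega) x hx, zero_mul]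
  have iW : Integrable fun x => z x ^ (M - 4) / R ^ 4 * wt A B u v x :=
    integrable_of_zero_off (((hz.continuous.pow (M - 4)).div_const _).continuousOn.mul
      (contDiffOn_wt' h).continuousOn) hKc hKΩ
      fun x hx => by rw [h0 _ (by omega : 0 < M - 4) x hx, zero_div, zero_mul]
  have hpt : ∀ x, δ / 4 * (z x ^ M * densW σ τ p q A B u v x) ≤
      (η x * D x + ∑ i, pd i η x * X i x) +
        C₀ * M ^ 4 * (z x ^ (M - 4) / R ^ 4 * wt A B u v x) := by
    intro x
    by_cases hx : x ∈ annulus n (R / 2) (2 * R)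
    · have hxΩ := hKΩ hx
      obtain ⟨hz0, hz1⟩ := hz01 x
      have hn0 : (0 : ℝ) < n := by
        have : 0 < n := by
          rcases Nat.eq_zero_or_pos n with h0' | h0'
          · subst h0'; exact absurd (funext fun i => i.elim0) hxΩ
          · exact h0'
        exact_mod_cast this
      have he0 : 0 < e := by positivity
      have hW := wt_pos' (A := A) (B := B) h x
      have hF := densW_nonneg (A := A) (B := B) h x
      have hterm : ∀ i, -(pd i η x * X i x) ≤
          M * (e * (z x ^ M * densW σ τ p q A B u v x) +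
            (e ^ 3)⁻¹ * (K * (10 * T) ^ 4 * (z x ^ (M - 4) / R ^ 4 * wt A B u v x))) := fun i => by
        refine (neg_le_abs _).trans ?_
        rw [hη, hpd, mul_assoc (M : ℝ), mul_assoc (M : ℝ), abs_mul,
          abs_of_nonneg (Nat.cast_nonneg M)]
        refine mul_le_mul_of_nonneg_left ?_ (Nat.cast_nonneg M)
        refine fourth_young he0 (mul_nonneg (pow_nonneg hz0 _) hF) (by positivity) ?_
        have hp : (z x ^ (M - 1)) ^ 4 = (z x ^ M) ^ 3 * z x ^ (M - 4) := by
          rw [← pow_mul, ← pow_mul, ← pow_add]; congr 1; omega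
        have hd4 : pd i z x ^ 4 ≤ (10 * T) ^ 4 / R ^ 4 := by
          rw [← pow4_abs, ← div_pow]; exact pow_le_pow_left₀ (abs_nonneg _) (hzd i x) 4
        calc (z x ^ (M - 1) * pd i z x * X i x) ^ 4
            = (z x ^ M) ^ 3 * z x ^ (M - 4) * (pd i z x ^ 4 *
                X i x ^ 4) := by rw [← hp]; ring
          _ ≤ (z x ^ M) ^ 3 * z x ^ (M - 4) * ((10 * T) ^ 4 / R ^ 4 *
                (K * (densW σ τ p q A B u v x ^ 3 * wt A B u v x))) :=
              mul_le_mul_of_nonneg_left (mul_le_mul hd4 (hXb x hxΩ i) (pow4_nonneg _)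
                (by positivity)) (by positivity)
          _ = _ := by ring
      have hs := Finset.sum_le_sum (s := Finset.univ) fun i _ => hterm i
      rw [Finset.sum_neg_distrib, Finset.sum_const, Finset.card_univ, Fintype.card_fin,
        nsmul_eq_mul] at hs
      have hl := mul_le_mul_of_nonneg_left (hlow x hxΩ) (pow_nonneg hz0 M)
      have hq : z x ^ M * (L * (wt A B u v x * (sqn x)⁻¹ ^ 2)) ≤
          L * 16 * M ^ 4 * (z x ^ (M - 4) / R ^ 4 * wt A B u v x) := by
        have h1 : (sqn x)⁻¹ ^ 2 ≤ 16 / R ^ 4 := by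
          rw [show 16 / R ^ 4 = ((R ^ 2 / 4)⁻¹) ^ 2 by field_simp; norm_num]
          exact pow_le_pow_left₀ (inv_nonneg.2 (sqn_pos hxΩ).le)
            (inv_anti₀ (by positivity) (by linarith [hx.1])) 2
        have h2 : z x ^ M ≤ z x ^ (M - 4) * M ^ 4 :=
          (pow_le_pow_of_le_one hz0 hz1 (by omega)).trans
            (le_mul_of_one_le_right (pow_nonneg hz0 _) (one_le_pow₀ hM0))
        calc z x ^ M * (L * (wt A B u v x * (sqn x)⁻¹ ^ 2))
            ≤ z x ^ (M - 4) * M ^ 4 * (L * (wt A B u v x * (16 / R ^ 4))) :=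
              mul_le_mul h2 (mul_le_mul_of_nonneg_left (mul_le_mul_of_nonneg_left h1 hW.le) hL0)
                (by positivity) (by positivity)
          _ = _ := by ring
      have e1 : (n : ℝ) * (M * (e * (z x ^ M * densW σ τ p q A B u v x))) =
          δ / 4 * (z x ^ M * densW σ τ p q A B u v x) := by rw [he]; field_simp
      have e2 : (n : ℝ) * (M * ((e ^ 3)⁻¹ * (K * (10 * T) ^ 4))) =
          (4 * (n : ℝ) / δ) ^ 3 * K * n * (10 * T) ^ 4 * M ^ 4 := by rw [he]; field_simp
      simp only [hη] at hs ⊢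
      rw [hC₀]
      linear_combination hs + hl + hq + e1 +
        (z x ^ (M - 4) / R ^ 4 * wt A B u v x) * e2
    · simp [show η x = 0 from h0 M (by omega) x hx, hpd, h0 M (by omega) x hx,
        h0 _ (by omega : 0 < M - 1) x hx, h0 _ (by omega : 0 < M - 4) x hx]
  have hm := integral_mono (iF.const_mul (δ / 4)) (iI.add (iW.const_mul (C₀ * M ^ 4))) hpt
  simp only [Pi.add_apply] at hm
  rw [integral_add iI (iW.const_mul _), hint, integral_const_mul, integral_const_mul, zero_add] at hm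
  calc ∫ x, z x ^ M * densW σ τ p q A B u v x
      = 4 / δ * (δ / 4 * ∫ x, z x ^ M * densW σ τ p q A B u v x) := by field_simp
    _ ≤ 4 / δ * _ := mul_le_mul_of_nonneg_left hm (by positivity)
    _ = _ := by ring

theorem shell_step (h : IsSolW σ τ p q u v) {δ : ℝ} (hδ : 0 < δ) {c : Fin 14 → ℝ}
    (hcert : IsCert n p q A B δ c) : StepBound σ τ p q A B u v := by
  obtain ⟨L, hL0, hlow⟩ := certDivW_lower h hδ hcert
  exact step_of_field h hδ hL0 (pow4_nonneg _) (good_certW h c) hlow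
    fun x _ i => certW_bound h c x i

end Vale.Agent.P100.Weighted
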