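import Vale.Agent.P100.Weighted.Energy

/-!
# P100: bounds on the shells for the weighted system

The energy bound turns, by interpolation between `W s²`, `W t²` and a constant, into
`∫ bTerm ≤ C R^(n - α - β - 2)` on the shell `R ≤ |x| ≤ 2R`, and `≤ C R^(n-2)` near the origin.
-/

namespace Vale.Agent.P100.Weighted

open Set Filter Topology MeasureTheory
open Vale.Agent.P252 (pd)

variable {n : ℕ} {σ τ p q A B : ℝ} {u v : (Fin n → ℝ) → ℝ}

theorem wt_le_energy (h : IsSolW σ τ p q u v) (hpq : 1 < p * q) (hA : 0 ≤ A + q * B)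
    (hB : 0 ≤ p * A + B) {x : Fin n → ℝ} (hx : x ∈ punctured n) :
    wt A B u v x ≤ sqn x ^ (-(σ * (A + q * B) + τ * (p * A + B)) / (p * q - 1) / 2) *
      Real.sqrt (energy (ja u x) (ja v x) (jP u x) (jP v x) (jw σ p u v x) (jw τ q v u x)) ^
        ((A * (p + 1) + B * (q + 1)) / (p * q - 1)) := by
  have hd : 0 < p * q - 1 := by linarith
  have hd' := hd.ne'
  set s := jw σ p u v x with hs
  set t := jw τ q v u x with ht
  set G := energy (ja u x) (ja v x) (jP u x) (jP v x) s t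
  set a := (A + q * B) / (p * q - 1) with ha
  set b := (p * A + B) / (p * q - 1) with hb
  have ha0 : 0 ≤ a := div_nonneg hA hd.le
  have hb0 : 0 ≤ b := div_nonneg hB hd.le
  have hu := h.pos_u x
  have hv := h.pos_v x
  have hX := sqn_pos hx
  have hs0 : 0 < s := jw_pos h hx
  have ht0 : 0 < t := jw_pos h.swap hx
  obtain ⟨hsG, htG⟩ := energy_ge (ja u x) (ja v x) (jP u x) (jP v x) s t
  have eA : A = q * b - a := by
    rw [ha, hb, ← mul_div_assoc, ← sub_div, eq_div_iff hd']; ring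
  have eB : B = p * a - b := by
    rw [ha, hb, ← mul_div_assoc, ← sub_div, eq_div_iff hd']; ring
  have eE : -(σ * (A + q * B) + τ * (p * A + B)) / (p * q - 1) / 2 = -(σ * a + τ * b) / 2 := by
    rw [ha, hb]; ring
  have e : wt A B u v x = sqn x ^ (-(σ * (A + q * B) + τ * (p * A + B)) / (p * q - 1) / 2) *
      (s ^ a * t ^ b) := by
    have ls : Real.log s = σ / 2 * Real.log (sqn x) + p * Real.log (v x) - Real.log (u x) := by
      rw [hs, jw, rw', Real.log_div (by positivity) hu.ne',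
        Real.log_mul (Real.rpow_pos_of_pos hX _).ne' (Real.rpow_pos_of_pos hv _).ne',
        Real.log_rpow hX, Real.log_rpow hv]
    have lt : Real.log t = τ / 2 * Real.log (sqn x) + q * Real.log (u x) - Real.log (v x) := by
      rw [ht, jw, rw', Real.log_div (by positivity) hv.ne',
        Real.log_mul (Real.rpow_pos_of_pos hX _).ne' (Real.rpow_pos_of_pos hu _).ne',
        Real.log_rpow hX, Real.log_rpow hu]
    rw [wt, Real.rpow_def_of_pos hu, Real.rpow_def_of_pos hv, Real.rpow_def_of_pos hX,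
      Real.rpow_def_of_pos hs0, Real.rpow_def_of_pos ht0, ← Real.exp_add, ← Real.exp_add,
      ← Real.exp_add, ls, lt, eE]
    congr 1
    linear_combination Real.log (u x) * eA + Real.log (v x) * eB
  have hab : (A * (p + 1) + B * (q + 1)) / (p * q - 1) = a + b := by
    rw [ha, hb, ← add_div]; ring
  rw [e, hab, Real.rpow_add (Real.sqrt_pos.2 (lt_of_lt_of_le (pow_pos hs0 2) hsG))]
  exact mul_le_mul_of_nonneg_left (mul_le_mul
    (Real.rpow_le_rpow hs0.le (Real.le_sqrt_of_sq_le hsG) ha0)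
    (Real.rpow_le_rpow ht0.le (Real.le_sqrt_of_sq_le htG) hb0) (Real.rpow_nonneg ht0.le _)
    (Real.rpow_nonneg (Real.sqrt_nonneg _) _)) (Real.rpow_nonneg hX.le _)

theorem isCompact_shell (R : ℝ) : IsCompact (shell n R) := by
  refine (isCompact_Icc (a := fun _ : Fin n => -(2 * |R|)) (b := fun _ => 2 * |R|)).of_isClosed_subset
    ((isClosed_le continuous_const contDiff_sqn.continuous).inter
      (isClosed_le contDiff_sqn.continuous continuous_const)) fun x hx => ?_
  have h := fun i => abs_le.1 (abs_le_of_sqn_le (by positivity : (0 : ℝ) ≤ 2 * |R|)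
    (by rw [mul_pow, sq_abs]; linarith [hx.2] : sqn x ≤ (2 * |R|) ^ 2) i)
  exact ⟨fun i => (h i).1, fun i => (h i).2⟩

theorem shell_subset {R : ℝ} (hR : 0 < R) : shell n R ⊆ punctured n := fun x hx h0 => by
  have : sqn x = 0 := by rw [Set.mem_singleton_iff.1 h0]; simp [sqn]
  nlinarith [hx.1, pow_pos hR 2]

theorem shell_vol {R : ℝ} (hR : 0 < R) : (volume (shell n R)).toReal ≤ (4 * R) ^ n := by
  have hc := isCompact_shell (n := n) R
  have h := integral_le_box (n := n) (f := (shell n R).indicator fun _ => (1 : ℝ)) (r := R) (b := 1)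
    hR (fun x _ => Set.indicator_le_self' (fun _ _ => zero_le_one) x) zero_le_one
    (fun x hx => Set.indicator_of_notMem (fun h => by linarith [h.2]) _)
    ((integrableOn_const hc.measure_lt_top.ne).integrable_indicator hc.measurableSet)
  rwa [integral_indicator hc.measurableSet, setIntegral_const, smul_eq_mul, mul_one, one_mul,
    Measure.real] at h

theorem annulus_vol {R : ℝ} (hR : 0 < R) :
    (volume (annulus n (R / 2) (2 * R))).toReal ≤ (8 * R) ^ n := by
  have hc := (zcut_props (n := n) (ρ := R / 2) (R := 2 * R) (by linarith) (by linarith)).1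
  have h := integral_le_box (n := n) (f := (annulus n (R / 2) (2 * R)).indicator fun _ => (1 : ℝ))
    (r := 2 * R) (b := 1) (by linarith)
    (fun x _ => Set.indicator_le_self' (fun _ _ => zero_le_one) x) zero_le_one
    (fun x hx => Set.indicator_of_notMem (fun h => by nlinarith [h.2]) _)
    ((integrableOn_const hc.measure_lt_top.ne).integrable_indicator hc.measurableSet)
  rw [integral_indicator hc.measurableSet, setIntegral_const, smul_eq_mul, mul_one, one_mul,
    Measure.real, show (4 * (2 * R) : ℝ) = 8 * R by ring] at h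
  exact h

/-- The energy on a shell is bounded by its cut-off version. -/
theorem setIntegral_shell_le (h : IsSolW σ τ p q u v) {M : ℕ} (hM : 0 < M) {R : ℝ} (hR : 0 < R) :
    ∫ x in shell n R, densW σ τ p q A B u v x ≤
      ∫ x, zcut (R / 2) (2 * R) x ^ M * densW σ τ p q A B u v x := by
  obtain ⟨hKc, hKΩ, hzK, hz, hz01⟩ :=
    zcut_props (n := n) (ρ := R / 2) (R := 2 * R) (by linarith) (by linarith)
  have iF : Integrable fun x => zcut (R / 2) (2 * R) x ^ M * densW σ τ p q A B u v x :=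
    integrable_of_zero_off ((hz.continuous.pow M).continuousOn.mul (continuousOn_densW h)) hKc hKΩ
      fun x hx => by rw [hzK x hx, zero_pow (by omega), zero_mul]
  have e : ∀ x ∈ shell n R,
      densW σ τ p q A B u v x = zcut (R / 2) (2 * R) x ^ M * densW σ τ p q A B u v x := by
    intro x hx
    have e1 : inner' (R / 2) x = 1 := Real.smoothTransition.one_of_one_le (by
      rw [le_sub_iff_add_le, le_div_iff₀ (by positivity)]; nlinarith [hx.1])
    have e2 : outer' (2 * R) x = 1 := Real.smoothTransition.one_of_one_le (by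
      rw [le_sub_iff_add_le, ← le_sub_iff_add_le', div_le_iff₀ (by positivity)]; nlinarith [hx.2])
    simp [zcut, e1, e2]
  rw [setIntegral_congr_fun (isCompact_shell R).measurableSet e]
  refine setIntegral_le_integral iF (Eventually.of_forall fun x => ?_)
  exact mul_nonneg (pow_nonneg (hz01 x).1 _) (densW_nonneg h x)

/-- **The energy bound on shells.** -/
theorem energy_shell (h : IsSolW σ τ p q u v) (hpq : 1 < p * q) (hA : 0 ≤ A + q * B)
    (hB : 0 ≤ p * A + B) (hstep₀ : StepBound σ τ p q A B u v) :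
    ∃ C : ℝ, 0 ≤ C ∧ ∀ R : ℝ, 0 < R →
      ∫ x in shell n R, densW σ τ p q A B u v x ≤
        C * R ^ ((n : ℝ) - degW σ τ p q A B) := by
  obtain ⟨C₁, hC₁, hstep⟩ := hstep₀
  have hd : 0 < p * q - 1 := by linarith
  set κ := (A * (p + 1) + B * (q + 1)) / (p * q - 1) with hκ
  set E := -(σ * (A + q * B) + τ * (p * A + B)) / (p * q - 1) with hE
  have hκ0 : 0 ≤ κ := by rw [hκ]; exact div_nonneg (by nlinarith) hd.le
  set θ := κ / (κ + 2) with hθ
  have h1θ : 1 - θ = 2 / (κ + 2) := by rw [hθ]; field_simp; ring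
  have hθ0 : 0 ≤ θ := by positivity
  have hθ1 : θ < 1 := by rw [hθ, div_lt_one (by linarith)]; linarith
  set M : ℕ := ⌈4 / (1 - θ)⌉₊ + 5 with hM
  have hM5 : 5 ≤ M := by omega
  have hMθ : 4 ≤ (M : ℝ) * (1 - θ) := by
    rw [← div_le_iff₀ (by linarith), hM]; push_cast; linarith [Nat.le_ceil (4 / (1 - θ))]
  set c₀ := max ((1 / 4 : ℝ) ^ (E / 2)) (8 ^ (E / 2)) with hc₀
  have hc₀0 : 0 < c₀ := lt_max_of_lt_left (by positivity)
  set c₁ := C₁ * M ^ 4 * c₀ ^ (1 - θ) with hc₁
  have hc₁0 : 0 ≤ c₁ := by positivity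
  set e := 1 / (2 * c₁ + 1) with he
  obtain ⟨cy, hcy, hy⟩ := theta_young hθ0 hθ1 (show 0 < e by positivity)
  refine ⟨2 * c₁ * cy * 8 ^ n, by positivity, fun R hR => ?_⟩
  refine (setIntegral_shell_le h (by omega : 0 < M) hR).trans ?_
  obtain ⟨hKc, hKΩ, hzK, hz, hz01⟩ :=
    zcut_props (n := n) (ρ := R / 2) (R := 2 * R) (by linarith) (by linarith)
  set z := zcut (n := n) (R / 2) (2 * R)
  set K := annulus n (R / 2) (2 * R)
  set I := ∫ x, z x ^ M * densW σ τ p q A B u v x with hI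
  set Y := R ^ (-degW σ τ p q A B) with hY
  have hY0 : 0 ≤ Y := Real.rpow_nonneg hR.le _
  have iF : Integrable fun x => z x ^ M * densW σ τ p q A B u v x :=
    integrable_of_zero_off ((hz.continuous.pow M).continuousOn.mul (continuousOn_densW h)) hKc hKΩ
      fun x hx => by rw [hzK x hx, zero_pow (by omega), zero_mul]
  have iW : Integrable fun x => z x ^ (M - 4) / R ^ 4 * wt A B u v x :=
    integrable_of_zero_off (((hz.continuous.pow (M - 4)).div_const _).continuousOn.mul
      (contDiffOn_wt' h).continuousOn) hKc hKΩ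
      fun x hx => by rw [hzK x hx, zero_pow (by omega : M - 4 ≠ 0), zero_div, zero_mul]
  have iK : Integrable (K.indicator fun _ => cy * Y) :=
    (integrableOn_const hKc.measure_lt_top.ne).integrable_indicator hKc.measurableSet
  have hpt : ∀ x, z x ^ (M - 4) / R ^ 4 * wt A B u v x ≤
      c₀ ^ (1 - θ) * (e * (z x ^ M * densW σ τ p q A B u v x) +
        K.indicator (fun _ => cy * Y) x) := by
    intro x
    by_cases hx : x ∈ K
    · have hxΩ := hKΩ hx
      obtain ⟨hz0, hz1⟩ := hz01 x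
      set G := energy (ja u x) (ja v x) (jP u x) (jP v x) (jw σ p u v x) (jw τ q v u x) with hG
      have hG0 : 0 < G := lt_of_lt_of_le (pow_pos (jw_pos h hxΩ) 2) (energy_ge _ _ _ _ _ _).1
      have hW := wt_pos' (A := A) (B := B) h x
      have hF : 0 ≤ densW σ τ p q A B u v x := densW_nonneg h x
      have h1 := wt_le_energy h hpq hA hB hxΩ
      rw [← hE, ← hκ, ← hG] at h1
      have h2 : wt A B u v x ≤ c₀ * R ^ E * Real.sqrt G ^ κ :=
        h1.trans (mul_le_mul_of_nonneg_right (rpow_comparable hR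
          (by nlinarith [hx.1]) (by nlinarith [hx.2]) E) (Real.rpow_nonneg (Real.sqrt_nonneg _) _))
      have h3 : wt A B u v x ≤
          (c₀ * R ^ E) ^ (1 - θ) * densW σ τ p q A B u v x ^ θ := by
        calc wt A B u v x = wt A B u v x ^ θ * wt A B u v x ^ (1 - θ) := by
              rw [← Real.rpow_add hW, add_sub_cancel, Real.rpow_one]
          _ ≤ wt A B u v x ^ θ * (c₀ * R ^ E * Real.sqrt G ^ κ) ^ (1 - θ) :=
              mul_le_mul_of_nonneg_left (Real.rpow_le_rpow hW.le h2 (by linarith))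
                (Real.rpow_nonneg hW.le _)
          _ = _ := by
            rw [densW, ← hG, Real.mul_rpow hW.le hG0.le,
              Real.mul_rpow (by positivity : 0 ≤ c₀ * R ^ E) (by positivity),
              Real.sqrt_eq_rpow, ← Real.rpow_mul hG0.le, ← Real.rpow_mul hG0.le]
            have : 1 / 2 * κ * (1 - θ) = θ := by rw [h1θ, hθ]; field_simp
            rw [this]
            ring
      have key : z x ^ (M - 4) ≤ (z x ^ M) ^ θ := by
        rw [← Real.rpow_natCast (z x) M, ← Real.rpow_mul hz0, ← Real.rpow_natCast (z x) (M - 4)]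
        have hM4 : (0 : ℝ) < ((M - 4 : ℕ) : ℝ) := by exact_mod_cast (show 0 < M - 4 by omega)
        rcases eq_or_lt_of_le hz0 with h' | h'
        · rw [← h', Real.zero_rpow hM4.ne']; exact Real.rpow_nonneg le_rfl _
        · refine Real.rpow_le_rpow_of_exponent_ge h' hz1 ?_
          rw [Nat.cast_sub (show 4 ≤ M by omega)]
          push_cast
          linarith
      have hRY : (c₀ * R ^ E) ^ (1 - θ) / R ^ 4 = c₀ ^ (1 - θ) * Y ^ (1 - θ) := by
        rw [hY, Real.mul_rpow hc₀0.le (Real.rpow_nonneg hR.le _), ← Real.rpow_mul hR.le,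
          ← Real.rpow_mul hR.le, ← Real.rpow_natCast R 4, mul_div_assoc, ← Real.rpow_sub hR]
        congr 2
        have : degW σ τ p q A B = -E + 2 * κ + 4 := by
          rw [degW, expU, expU, hE, hκ, mul_comm q p]; field_simp; ring
        rw [this, h1θ]
        push_cast
        field_simp
        ring
      rw [Set.indicator_of_mem hx]
      calc z x ^ (M - 4) / R ^ 4 * wt A B u v x
          ≤ (z x ^ M) ^ θ / R ^ 4 * ((c₀ * R ^ E) ^ (1 - θ) * densW σ τ p q A B u v x ^ θ) :=
            mul_le_mul (div_le_div_of_nonneg_right key (by positivity)) h3 hW.le (by positivity)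
        _ = c₀ ^ (1 - θ) * ((z x ^ M * densW σ τ p q A B u v x) ^ θ * Y ^ (1 - θ)) := by
            rw [Real.mul_rpow (pow_nonneg hz0 _) hF]
            linear_combination ((z x ^ M) ^ θ * densW σ τ p q A B u v x ^ θ) * hRY
        _ ≤ _ := mul_le_mul_of_nonneg_left
            (hy _ _ (mul_nonneg (pow_nonneg hz0 _) hF) hY0) (Real.rpow_nonneg hc₀0.le _)
    · simp [Set.indicator_of_notMem hx, hzK x hx, zero_pow (by omega : M - 4 ≠ 0),
        zero_pow (by omega : M ≠ 0)]
  have hm := integral_mono iW ((iF.const_mul e).add iK |>.const_mul (c₀ ^ (1 - θ))) hpt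
  simp only [Pi.add_apply] at hm
  rw [integral_const_mul, integral_add (iF.const_mul e) iK, integral_const_mul,
    integral_indicator hKc.measurableSet, setIntegral_const, smul_eq_mul] at hm
  have hI0 : 0 ≤ I := integral_nonneg fun x =>
    mul_nonneg (pow_nonneg (hz01 x).1 _) (densW_nonneg h x)
  have hIle : I ≤ c₁ * (e * I + (8 * R) ^ n * (cy * Y)) := by
    refine (hstep M hM5 R hR).trans ?_
    calc C₁ * (M : ℝ) ^ 4 * ∫ x, z x ^ (M - 4) / R ^ 4 * wt A B u v x
        ≤ C₁ * (M : ℝ) ^ 4 * (c₀ ^ (1 - θ) * (e * I + (8 * R) ^ n * (cy * Y))) :=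
          mul_le_mul_of_nonneg_left (hm.trans (mul_le_mul_of_nonneg_left (add_le_add le_rfl
            (mul_le_mul_of_nonneg_right (annulus_vol hR) (by positivity)))
            (Real.rpow_nonneg hc₀0.le _))) (by positivity)
      _ = _ := by rw [hc₁]; ring
  have he2 : c₁ * e ≤ 1 / 2 := by rw [he, mul_one_div, div_le_iff₀ (by positivity)]; linarith
  have hfin : (8 * R) ^ n * Y = 8 ^ n * R ^ ((n : ℝ) - degW σ τ p q A B) := by
    rw [hY, mul_pow, sub_eq_add_neg, Real.rpow_add hR, Real.rpow_natCast]; ring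
  nlinarith [mul_le_mul_of_nonneg_right he2 hI0, congrArg (fun y => 2 * c₁ * cy * y) hfin]

/-- The energy near the origin. -/
theorem energy_shell_small (h : IsSolW σ τ p q u v) (hstep₀ : StepBound σ τ p q A B u v) :
    ∃ C : ℝ, 0 ≤ C ∧ ∀ R : ℝ, 0 < R → R ≤ 1 / 2 →
      ∫ x in shell n R, densW σ τ p q A B u v x ≤ C * (R ^ n / R ^ 4) := by
  obtain ⟨C₁, hC₁, hstep⟩ := hstep₀
  obtain ⟨Bd, hBd⟩ := (isCompact_Icc (a := fun _ : Fin n => (-2 : ℝ))
    (b := fun _ => 2)).exists_bound_of_continuousOn (f := wt A B u v)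
    (((h.cont_u.rpow_const fun x => Or.inl (h.pos_u x).ne').mul
      (h.cont_v.rpow_const fun x => Or.inl (h.pos_v x).ne'))).continuousOn
  refine ⟨C₁ * (5 : ℕ) ^ 4 * |Bd| * 8 ^ n, by positivity, fun R hR hR1 => ?_⟩
  refine (setIntegral_shell_le h (by norm_num : 0 < 5) hR).trans ((hstep 5 le_rfl R hR).trans ?_)
  obtain ⟨hKc, hKΩ, hzK, hz, hz01⟩ :=
    zcut_props (n := n) (ρ := R / 2) (R := 2 * R) (by linarith) (by linarith)
  set z := zcut (n := n) (R / 2) (2 * R)
  have iW : Integrable fun x => z x ^ (5 - 4) / R ^ 4 * wt A B u v x :=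
    integrable_of_zero_off (((hz.continuous.pow (5 - 4)).div_const _).continuousOn.mul
      (contDiffOn_wt' h).continuousOn) hKc hKΩ
      fun x hx => by rw [hzK x hx, zero_pow (by norm_num), zero_div, zero_mul]
  have hb : ∫ x, z x ^ (5 - 4) / R ^ 4 * wt A B u v x ≤ |Bd| / R ^ 4 * (4 * (2 * R)) ^ n := by
    refine integral_le_box (by linarith) (fun x hx => ?_) (by positivity) (fun x hx => ?_) iW
    · have h2 := fun i => abs_le.1 (abs_le_of_sqn_le (r := 2) (by norm_num) (by nlinarith) i)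
      have hW : wt A B u v x ≤ |Bd| := ((le_abs_self _).trans
        (hBd x ⟨fun i => (h2 i).1, fun i => (h2 i).2⟩)).trans (le_abs_self _)
      calc z x ^ (5 - 4) / R ^ 4 * wt A B u v x ≤ 1 / R ^ 4 * |Bd| :=
            mul_le_mul (div_le_div_of_nonneg_right (pow_le_one₀ (hz01 x).1 (hz01 x).2)
              (by positivity)) hW (wt_pos' h x).le (by positivity)
        _ = _ := by ring
    · rw [hzK x (fun hK => by nlinarith [hK.2]), zero_pow (by norm_num), zero_div, zero_mul]
  calc C₁ * (5 : ℕ) ^ 4 * ∫ x, z x ^ (5 - 4) / R ^ 4 * wt A B u v x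
      ≤ C₁ * (5 : ℕ) ^ 4 * (|Bd| / R ^ 4 * (4 * (2 * R)) ^ n) :=
        mul_le_mul_of_nonneg_left hb (by positivity)
    _ = _ := by rw [show (4 * (2 * R) : ℝ) = 8 * R by ring, mul_pow]; ring

theorem mono_eq {x : Fin n → ℝ} (hu : 0 < u x) (hv : 0 < v x) (hX : 0 < sqn x) {a b l₁ l₂ : ℝ}
    (hea : a = l₁ * (A - 2) + l₂ * (A + 2 * q)) (heb : b = l₁ * (B + 2 * p) + l₂ * (B - 2)) :
    u x ^ a * v x ^ b = sqn x ^ (-(2 * (σ * l₁ + τ * l₂)) / 2) *
      ((wt A B u v x * jw σ p u v x ^ 2) ^ l₁ * (wt A B u v x * jw τ q v u x ^ 2) ^ l₂) := by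
  have hs0 : 0 < jw σ p u v x :=
    div_pos (mul_pos (Real.rpow_pos_of_pos hX _) (Real.rpow_pos_of_pos hv _)) hu
  have ht0 : 0 < jw τ q v u x :=
    div_pos (mul_pos (Real.rpow_pos_of_pos hX _) (Real.rpow_pos_of_pos hu _)) hv
  have hW : 0 < wt A B u v x :=
    mul_pos (Real.rpow_pos_of_pos hu _) (Real.rpow_pos_of_pos hv _)
  have ls : Real.log (jw σ p u v x) =
      σ / 2 * Real.log (sqn x) + p * Real.log (v x) - Real.log (u x) := by
    rw [jw, rw', Real.log_div (by positivity) hu.ne',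
      Real.log_mul (Real.rpow_pos_of_pos hX _).ne' (Real.rpow_pos_of_pos hv _).ne',
      Real.log_rpow hX, Real.log_rpow hv]
  have lt : Real.log (jw τ q v u x) =
      τ / 2 * Real.log (sqn x) + q * Real.log (u x) - Real.log (v x) := by
    rw [jw, rw', Real.log_div (by positivity) hv.ne',
      Real.log_mul (Real.rpow_pos_of_pos hX _).ne' (Real.rpow_pos_of_pos hu _).ne',
      Real.log_rpow hX, Real.log_rpow hu]
  have lW : Real.log (wt A B u v x) = A * Real.log (u x) + B * Real.log (v x) := by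
    rw [wt, Real.log_mul (Real.rpow_pos_of_pos hu _).ne' (Real.rpow_pos_of_pos hv _).ne',
      Real.log_rpow hu, Real.log_rpow hv]
  rw [Real.rpow_def_of_pos hu, Real.rpow_def_of_pos hv, Real.rpow_def_of_pos hX,
    Real.rpow_def_of_pos (mul_pos hW (pow_pos hs0 2)),
    Real.rpow_def_of_pos (mul_pos hW (pow_pos ht0 2)), ← Real.exp_add, ← Real.exp_add,
    ← Real.exp_add]
  congr 1
  rw [Real.log_mul hW.ne' (pow_pos hs0 2).ne', Real.log_mul hW.ne' (pow_pos ht0 2).ne',
    Real.log_pow, Real.log_pow, ls, lt, lW]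
  push_cast
  linear_combination Real.log (u x) * hea + Real.log (v x) * heb

/-- A monomial in `u`, `v` on a shell, by `W s²`, `W t²` and a constant. -/
theorem mono_bound (h : IsSolW σ τ p q u v) (hpq : 1 < p * q) (hp : 0 < p) (hq : 0 < q)
    (hA : 0 ≤ A) (hA' : A ≤ 2) (hB : 0 ≤ B) (hB' : B ≤ 2) {a b : ℝ} (ha : 0 ≤ a) (hb : 0 ≤ b)
    (hab : a * (2 + 2 * p) + b * (2 + 2 * q) ≤
      4 * (p * q - 1) + 2 * (A + B + p * A + q * B)) :
    ∃ C : ℝ, 0 ≤ C ∧ ∀ R : ℝ, 0 < R → ∀ x ∈ shell n R, u x ^ a * v x ^ b ≤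
      C * R ^ (-(a * expU σ τ p q + b * expU τ σ q p)) *
        (1 + densW σ τ p q A B u v x * R ^ degW σ τ p q A B) := by
  have hd : 0 < p * q - 1 := by linarith
  obtain ⟨Δ, hΔ⟩ : ∃ y : ℝ, y = 4 * (p * q - 1) + 2 * (A + B + p * A + q * B) := ⟨_, rfl⟩
  have hΔ0 : 0 < Δ := by
    have := mul_nonneg hp.le hA; have := mul_nonneg hq.le hB
    linarith
  obtain ⟨l₁, hl₁⟩ : ∃ y : ℝ, y = (a * (2 - B) + b * (A + 2 * q)) / Δ := ⟨_, rfl⟩
  obtain ⟨l₂, hl₂⟩ : ∃ y : ℝ, y = (a * (B + 2 * p) + b * (2 - A)) / Δ := ⟨_, rfl⟩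
  have hl10 : 0 ≤ l₁ := hl₁ ▸ div_nonneg (add_nonneg (mul_nonneg ha (by linarith))
    (mul_nonneg hb (by linarith))) hΔ0.le
  have hl20 : 0 ≤ l₂ := hl₂ ▸ div_nonneg (add_nonneg (mul_nonneg ha (by linarith))
    (mul_nonneg hb (by linarith))) hΔ0.le
  have hl1 : l₁ + l₂ ≤ 1 := by
    rw [hl₁, hl₂, ← add_div, div_le_one hΔ0]; linarith
  have hea : a = l₁ * (A - 2) + l₂ * (A + 2 * q) := by
    rw [hl₁, hl₂, div_mul_eq_mul_div, div_mul_eq_mul_div, ← add_div, eq_div_iff hΔ0.ne', hΔ]; ring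
  have heb : b = l₁ * (B + 2 * p) + l₂ * (B - 2) := by
    rw [hl₁, hl₂, div_mul_eq_mul_div, div_mul_eq_mul_div, ← add_div, eq_div_iff hΔ0.ne', hΔ]; ring
  obtain ⟨E, hE⟩ : ∃ y : ℝ, y = -(2 * (σ * l₁ + τ * l₂)) := ⟨_, rfl⟩
  refine ⟨max ((1 / 4 : ℝ) ^ (E / 2)) (8 ^ (E / 2)), by positivity, fun R hR x hx => ?_⟩
  have hxΩ := shell_subset hR hx
  have hu := h.pos_u x
  have hv := h.pos_v x
  have hX := sqn_pos hxΩ
  have hs0 := jw_pos h hxΩ
  have ht0 := jw_pos h.swap hxΩ
  have hW := wt_pos' (A := A) (B := B) h x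
  set s := jw σ p u v x with hs
  set t := jw τ q v u x with ht
  set W := wt A B u v x with hW'
  set F := densW σ τ p q A B u v x with hF
  obtain ⟨hsG, htG⟩ := energy_ge (ja u x) (ja v x) (jP u x) (jP v x) s t
  have hs2 : W * s ^ 2 ≤ F := mul_le_mul_of_nonneg_left hsG hW.le
  have ht2 : W * t ^ 2 ≤ F := mul_le_mul_of_nonneg_left htG hW.le
  have hF0 : 0 < F := lt_of_lt_of_le (by positivity) hs2
  have hl : 0 ≤ l₁ + l₂ := by linarith
  have e : u x ^ a * v x ^ b = sqn x ^ (E / 2) * ((W * s ^ 2) ^ l₁ * (W * t ^ 2) ^ l₂) := by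
    rw [hE]; exact mono_eq (σ := σ) (τ := τ) hu hv hX hea heb
  have h4 : (W * s ^ 2) ^ l₁ * (W * t ^ 2) ^ l₂ ≤ F ^ (l₁ + l₂) := by
    rw [Real.rpow_add hF0]
    exact mul_le_mul (Real.rpow_le_rpow (by positivity) hs2 hl10)
      (Real.rpow_le_rpow (by positivity) ht2 hl20) (Real.rpow_nonneg (by positivity) _)
      (Real.rpow_nonneg hF0.le _)
  set D := degW σ τ p q A B with hD
  have h5 : F ^ (l₁ + l₂) ≤ R ^ (-(D * (l₁ + l₂))) * (1 + F * R ^ D) := by
    have hy0 : 0 ≤ F * R ^ D := mul_nonneg hF0.le (Real.rpow_nonneg hR.le _)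
    have : (F * R ^ D) ^ (l₁ + l₂) ≤ 1 + F * R ^ D := by
      rcases le_total (F * R ^ D) 1 with h1 | h1
      · linarith [Real.rpow_le_one hy0 h1 hl]
      · linarith [Real.rpow_le_self_of_one_le h1 hl1]
    calc F ^ (l₁ + l₂) = R ^ (-(D * (l₁ + l₂))) * (F * R ^ D) ^ (l₁ + l₂) := by
          rw [Real.mul_rpow hF0.le (Real.rpow_nonneg hR.le _), ← Real.rpow_mul hR.le,
            mul_left_comm, ← Real.rpow_add hR, neg_add_cancel, Real.rpow_zero, mul_one]
      _ ≤ _ := mul_le_mul_of_nonneg_left this (Real.rpow_nonneg hR.le _)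
  have hdeg : E + -(D * (l₁ + l₂)) = -(a * expU σ τ p q + b * expU τ σ q p) := by
    have k1 : p * expU τ σ q p - expU σ τ p q = 2 + σ := by
      rw [expU, expU, mul_comm q p, mul_div_assoc', ← sub_div, div_eq_iff hd.ne']; ring
    have k2 : q * expU σ τ p q - expU τ σ q p = 2 + τ := by
      rw [expU, expU, mul_comm q p, mul_div_assoc', ← sub_div, div_eq_iff hd.ne']; ring
    rw [hE, hD, degW]
    linear_combination (expU σ τ p q) * hea + (expU τ σ q p) * heb + 2 * l₁ * k1 + 2 * l₂ * k2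
  rw [e]
  calc sqn x ^ (E / 2) * ((W * s ^ 2) ^ l₁ * (W * t ^ 2) ^ l₂)
      ≤ max ((1 / 4 : ℝ) ^ (E / 2)) (8 ^ (E / 2)) * R ^ E *
          (R ^ (-(D * (l₁ + l₂))) * (1 + F * R ^ D)) :=
        mul_le_mul (rpow_comparable hR (by linarith only [hx.1, sq_nonneg R]) (by linarith only [hx.2, sq_nonneg R]) E)
          (h4.trans h5) (by positivity) (by positivity)
    _ = _ := by rw [← hdeg, Real.rpow_add hR]; ring

theorem continuousOn_bTerm (h : IsSolW σ τ p q u v) :
    ContinuousOn (bTerm σ τ p q u v) (punctured n) := by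
  have cd : ∀ {f : (Fin n → ℝ) → ℝ}, ContDiffOn ℝ 2 f (punctured n) → (∀ x, 0 < f x) →
      ContinuousOn (fun y => dotv (ja f y) (ja f y)) (punctured n) := fun hf hp =>
    continuousOn_finsetSum _ fun j _ =>
      ((contDiffOn_ja hf hp j).continuousOn).mul (contDiffOn_ja hf hp j).continuousOn
  exact (h.cont_u.continuousOn.mul h.cont_v.continuousOn).mul (((((cd h.smooth_u h.pos_u).add
    (cd h.smooth_v h.pos_v)).add
    (contDiffOn_jw h.smooth_u h.smooth_v h.pos_u h.pos_v).continuousOn).add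
    (contDiffOn_jw h.smooth_v h.smooth_u h.pos_v h.pos_u).continuousOn).add
    (contDiff_sqn.continuous.continuousOn.inv₀ fun x hx => (sqn_pos hx).ne'))

theorem bTerm_le (h : IsSolW σ τ p q u v) (x : Fin n → ℝ) :
    bTerm σ τ p q u v x ≤ 4 * (u x * v x * Real.sqrt
      (energy (ja u x) (ja v x) (jP u x) (jP v x) (jw σ p u v x) (jw τ q v u x))) +
        u x * v x * (sqn x)⁻¹ := by
  set G := energy (ja u x) (ja v x) (jP u x) (jP v x) (jw σ p u v x) (jw τ q v u x) with hG
  have hP0 := dotm_self_nonneg (jP u x)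
  have hQ0 := dotm_self_nonneg (jP v x)
  obtain ⟨hsG, htG⟩ :=
    energy_ge (ja u x) (ja v x) (jP u x) (jP v x) (jw σ p u v x) (jw τ q v u x)
  have ha : dotv (ja u x) (ja u x) ^ 2 ≤ G := by
    simp only [hG, energy]
    nlinarith [sq_nonneg (jw σ p u v x), sq_nonneg (jw τ q v u x),
      sq_nonneg (dotv (ja v x) (ja v x))]
  have hb : dotv (ja v x) (ja v x) ^ 2 ≤ G := by
    simp only [hG, energy]
    nlinarith [sq_nonneg (jw σ p u v x), sq_nonneg (jw τ q v u x),
      sq_nonneg (dotv (ja u x) (ja u x))]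
  have huv : 0 ≤ u x * v x := (mul_pos (h.pos_u x) (h.pos_v x)).le
  have := mul_le_mul_of_nonneg_left (add_le_add (add_le_add (add_le_add
    (Real.le_sqrt_of_sq_le ha) (Real.le_sqrt_of_sq_le hb)) (Real.le_sqrt_of_sq_le hsG))
    (Real.le_sqrt_of_sq_le htG)) huv
  rw [bTerm]
  linarith

/-- **The boundary terms far out.** -/
theorem shellInt_le (h : IsSolW σ τ p q u v) (hpq : 1 < p * q) (hp : 0 < p) (hq : 0 < q)
    (hA : 0 ≤ A) (hA' : A ≤ 1) (hB : 0 ≤ B) (hB' : B ≤ 1)
    (hγ : (1 - A) * (p + 1) + (1 - B) * (q + 1) ≤ p * q - 1)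
    (hstep₀ : StepBound σ τ p q A B u v) :
    ∃ C : ℝ, ∀ R : ℝ, 0 < R → shellInt σ τ p q u v R ≤
      C * R ^ ((n : ℝ) - (expU σ τ p q + expU τ σ q p + 2)) := by
  obtain ⟨Ce, hCe, hE⟩ := energy_shell h hpq (add_nonneg hA (mul_nonneg hq.le hB))
    (add_nonneg (mul_nonneg hp.le hA) hB) hstep₀
  obtain ⟨C₂, hC₂, hm2⟩ := mono_bound (A := A) (B := B) h hpq hp hq hA (by linarith) hB (by linarith)
    (show (0 : ℝ) ≤ 2 - A by linarith) (show (0 : ℝ) ≤ 2 - B by linarith) (by linarith)
  obtain ⟨C₁, hC₁, hm1⟩ := mono_bound (A := A) (B := B) h hpq hp hq hA (by linarith) hB (by linarith)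
    zero_le_one zero_le_one (by nlinarith)
  set P := expU σ τ p q + expU τ σ q p + 2 with hP
  set K := 4 * Real.sqrt C₂ + C₁ with hK
  refine ⟨K * (4 ^ n + Ce), fun R hR => ?_⟩
  set D := degW σ τ p q A B with hD
  have hK0 : 0 ≤ K := by positivity
  have hpt : ∀ x ∈ shell n R, bTerm σ τ p q u v x ≤
      K * R ^ (-P) * (1 + densW σ τ p q A B u v x * R ^ D) := by
    intro x hx
    set G := energy (ja u x) (ja v x) (jP u x) (jP v x) (jw σ p u v x) (jw τ q v u x) with hG
    have hG0 : 0 ≤ G := energy_nonneg' _ _ _ _ _ _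
    have hu := h.pos_u x
    have hv := h.pos_v x
    set F := densW σ τ p q A B u v x with hF
    have hF0 : 0 ≤ F := densW_nonneg h x
    have hX : 0 ≤ F * R ^ D := mul_nonneg hF0 (Real.rpow_nonneg hR.le _)
    have hFe : F = F * R ^ D * R ^ (-D) := by
      rw [mul_assoc, ← Real.rpow_add hR, add_neg_cancel, Real.rpow_zero, mul_one]
    have h1 : u x * v x * Real.sqrt G ≤ Real.sqrt C₂ * R ^ (-P) * (1 + F * R ^ D) := by
      have he : (u x * v x) ^ 2 * G = u x ^ (2 - A) * v x ^ (2 - B) * F := by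
        have hh : ∀ (y : ℝ) (r : ℝ), 0 < y → y ^ (2 - r) * y ^ r = y ^ 2 := fun y r hy => by
          rw [← Real.rpow_add hy, sub_add_cancel, ← Real.rpow_natCast y 2]; norm_num
        rw [hF, densW, ← hG, wt]
        linear_combination -(v x ^ (2 - B) * v x ^ B * G) * hh (u x) A hu -
          (u x ^ 2 * G) * hh (v x) B hv
      have e2 : Real.sqrt C₂ * R ^ (-P) * (1 + F * R ^ D) =
          Real.sqrt (C₂ * (R ^ (-P)) ^ 2 * (1 + F * R ^ D) ^ 2) := by
        rw [Real.sqrt_mul (by positivity), Real.sqrt_mul hC₂, Real.sqrt_sq (by positivity),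
          Real.sqrt_sq (by positivity)]
      rw [e2, show u x * v x * Real.sqrt G = Real.sqrt ((u x * v x) ^ 2 * G) by
        rw [Real.sqrt_mul (by positivity), Real.sqrt_sq (by positivity)]]
      refine Real.sqrt_le_sqrt ?_
      rw [he]
      calc u x ^ (2 - A) * v x ^ (2 - B) * F
          ≤ C₂ * R ^ (-((2 - A) * expU σ τ p q + (2 - B) * expU τ σ q p)) * (1 + F * R ^ D) *
              ((1 + F * R ^ D) * R ^ (-D)) :=
            mul_le_mul (hm2 R hR x hx) (hFe.le.trans
              (mul_le_mul_of_nonneg_right (by linarith) (Real.rpow_nonneg hR.le _))) hF0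
              (by positivity)
        _ = _ := by
          have : (R ^ (-P)) ^ 2 = R ^ (-((2 - A) * expU σ τ p q + (2 - B) * expU τ σ q p)) *
              R ^ (-D) := by
            rw [← Real.rpow_natCast (R ^ (-P)) 2, ← Real.rpow_mul hR.le, ← Real.rpow_add hR,
              hD, degW, hP]
            congr 1
            push_cast
            ring
          rw [this]; ring
    have h2 : u x * v x * (sqn x)⁻¹ ≤ C₁ * R ^ (-P) * (1 + F * R ^ D) := by
      have hm := hm1 R hR x hx
      rw [Real.rpow_one, Real.rpow_one, one_mul, one_mul] at hm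
      calc u x * v x * (sqn x)⁻¹
          ≤ C₁ * R ^ (-(expU σ τ p q + expU τ σ q p)) * (1 + F * R ^ D) * (R ^ 2)⁻¹ :=
            mul_le_mul hm (inv_anti₀ (by positivity) hx.1)
              (inv_nonneg.2 (sqn_nonneg x)) (by positivity)
        _ = _ := by
          have : R ^ (-P) = R ^ (-(expU σ τ p q + expU τ σ q p)) * (R ^ 2)⁻¹ := by
            rw [← Real.rpow_natCast R 2, ← Real.rpow_neg hR.le, ← Real.rpow_add hR, hP]
            congr 1
            push_cast
            ring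
          rw [this]; ring
    have := bTerm_le h x
    rw [← hG] at this
    rw [hK]
    linear_combination this + 4 * h1 + h2
  have hS := isCompact_shell (n := n) R
  have iF : IntegrableOn (densW σ τ p q A B u v) (shell n R) :=
    ((continuousOn_densW h).mono (shell_subset hR)).integrableOn_compact hS
  have i1 : IntegrableOn (fun _ : Fin n → ℝ => (1 : ℝ)) (shell n R) :=
    integrableOn_const hS.measure_lt_top.ne
  calc shellInt σ τ p q u v R
      ≤ ∫ x in shell n R, K * R ^ (-P) * (1 + densW σ τ p q A B u v x * R ^ D) :=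
        setIntegral_mono_on (((continuousOn_bTerm h).mono (shell_subset hR)).integrableOn_compact hS)
          ((i1.add (iF.mul_const _)).const_mul _) hS.measurableSet hpt
    _ = K * R ^ (-P) * ((volume (shell n R)).toReal +
          (∫ x in shell n R, densW σ τ p q A B u v x) * R ^ D) := by
        rw [integral_const_mul, integral_add i1 (iF.mul_const _), integral_mul_const,
          setIntegral_const, smul_eq_mul, mul_one, Measure.real]
    _ ≤ K * R ^ (-P) * ((4 * R) ^ n + Ce * R ^ ((n : ℝ) - D) * R ^ D) :=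
        mul_le_mul_of_nonneg_left (add_le_add (shell_vol hR)
          (mul_le_mul_of_nonneg_right (hE R hR) (Real.rpow_nonneg hR.le _))) (by positivity)
    _ = _ := by
        rw [mul_assoc Ce, ← Real.rpow_add hR, sub_add_cancel, Real.rpow_natCast, mul_pow,
          sub_eq_add_neg, Real.rpow_add hR, Real.rpow_natCast]
        ring

/-- **The boundary terms near the origin.** -/
theorem shellInt_small (h : IsSolW σ τ p q u v) (hstep₀ : StepBound σ τ p q A B u v) :
    ∃ C : ℝ, ∀ R : ℝ, 0 < R → R ≤ 1 / 2 → shellInt σ τ p q u v R ≤ C * (R ^ n / R ^ 2) := by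
  obtain ⟨Ce, hCe, hE⟩ := energy_shell_small h hstep₀
  have hcomp := isCompact_Icc (a := fun _ : Fin n => (-2 : ℝ)) (b := fun _ => (2 : ℝ))
  have hne : (Icc (fun _ : Fin n => (-2 : ℝ)) fun _ => (2 : ℝ)).Nonempty :=
    Set.nonempty_Icc.2 fun _ => by norm_num
  obtain ⟨x₁, _, hmax⟩ := hcomp.exists_isMaxOn hne (h.cont_u.mul h.cont_v).continuousOn
  obtain ⟨x₂, _, hmin⟩ := hcomp.exists_isMinOn hne
    ((h.cont_u.rpow_const fun x => Or.inl (h.pos_u x).ne').mul
      (h.cont_v.rpow_const fun x => Or.inl (h.pos_v x).ne')).continuousOn (f := wt A B u v)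
  set U := u x₁ * v x₁ with hU
  set w := wt A B u v x₂ with hw
  have hw0 : 0 < w := wt_pos' h x₂
  have hU0 : 0 < U := mul_pos (h.pos_u _) (h.pos_v _)
  refine ⟨U * (2 * (Ce / w) + 3 * 4 ^ n), fun R hR hR1 => ?_⟩
  have hS := isCompact_shell (n := n) R
  have iF : IntegrableOn (densW σ τ p q A B u v) (shell n R) :=
    ((continuousOn_densW h).mono (shell_subset hR)).integrableOn_compact hS
  have i1 : IntegrableOn (fun _ : Fin n → ℝ => 3 * (R ^ 2)⁻¹) (shell n R) :=
    integrableOn_const hS.measure_lt_top.ne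
  have hpt : ∀ x ∈ shell n R, bTerm σ τ p q u v x ≤
      U * (2 * R ^ 2 / w * densW σ τ p q A B u v x + 3 * (R ^ 2)⁻¹) := by
    intro x hx
    set G := energy (ja u x) (ja v x) (jP u x) (jP v x) (jw σ p u v x) (jw τ q v u x) with hG
    have hG0 : 0 ≤ G := energy_nonneg' _ _ _ _ _ _
    have h2 := fun i => abs_le.1 (abs_le_of_sqn_le (r := 2) (by norm_num)
      (by nlinarith [hx.2] : sqn x ≤ 2 ^ 2) i)
    have hbox : x ∈ Icc (fun _ : Fin n => (-2 : ℝ)) fun _ => (2 : ℝ) :=
      ⟨fun i => (h2 i).1, fun i => (h2 i).2⟩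
    have hUx : u x * v x ≤ U := hmax hbox
    have hwx : w ≤ wt A B u v x := hmin hbox
    have hGw : 2 * R ^ 2 * G ≤ 2 * R ^ 2 / w * densW σ τ p q A B u v x := by
      rw [densW, ← hG, div_mul_eq_mul_div, le_div_iff₀ hw0]
      nlinarith [mul_le_mul_of_nonneg_left hwx (mul_nonneg (sq_nonneg R) hG0)]
    have hs : 4 * Real.sqrt G ≤ 2 * R ^ 2 * G + 2 * (R ^ 2)⁻¹ := by
      have h0 := sq_nonneg (R * Real.sqrt G - R⁻¹)
      rw [sub_sq, mul_pow, Real.sq_sqrt hG0, inv_pow,
        show 2 * (R * Real.sqrt G) * R⁻¹ = 2 * Real.sqrt G by field_simp] at h0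
      linarith
    have hi : (sqn x)⁻¹ ≤ (R ^ 2)⁻¹ := inv_anti₀ (by positivity) hx.1
    have hb := bTerm_le h x
    rw [← hG] at hb
    calc bTerm σ τ p q u v x ≤ u x * v x * (4 * Real.sqrt G + (sqn x)⁻¹) := by linarith
      _ ≤ U * (2 * R ^ 2 / w * densW σ τ p q A B u v x + 3 * (R ^ 2)⁻¹) :=
          mul_le_mul hUx (by linarith) (add_nonneg (by positivity)
            (inv_nonneg.2 (sqn_nonneg x))) hU0.le
  have i2 : IntegrableOn
      (fun x => U * (2 * R ^ 2 / w * densW σ τ p q A B u v x + 3 * (R ^ 2)⁻¹)) (shell n R) :=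
    ((iF.const_mul (2 * R ^ 2 / w)).add i1).const_mul U
  calc shellInt σ τ p q u v R
      ≤ ∫ x in shell n R, U * (2 * R ^ 2 / w * densW σ τ p q A B u v x + 3 * (R ^ 2)⁻¹) :=
        setIntegral_mono_on (((continuousOn_bTerm h).mono (shell_subset hR)).integrableOn_compact hS)
          i2 hS.measurableSet hpt
    _ = U * (2 * R ^ 2 / w * (∫ x in shell n R, densW σ τ p q A B u v x) +
          (volume (shell n R)).toReal * (3 * (R ^ 2)⁻¹)) := by
        rw [integral_const_mul, integral_add (iF.const_mul _) i1, integral_const_mul,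
          setIntegral_const, smul_eq_mul, Measure.real]
    _ ≤ U * (2 * R ^ 2 / w * (Ce * (R ^ n / R ^ 4)) + (4 * R) ^ n * (3 * (R ^ 2)⁻¹)) :=
        mul_le_mul_of_nonneg_left (add_le_add
          (mul_le_mul_of_nonneg_left (hE R hR hR1) (by positivity))
          (mul_le_mul_of_nonneg_right (shell_vol hR) (by positivity))) hU0.le
    _ = _ := by rw [mul_pow]; field_simp

end Vale.Agent.P100.Weighted
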