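import Vale.Agent.P100.Far.Main
import Vale.Agent.P100.Weighted.Main

/-!
# P100: the weighted system above `n - 2 + 3n / (10 (n + 2))`

Above the ranges of `Weighted.no_solution_ordered` the weights of `Thin` (for
`p + 1 ≤ 27/2 (q + 1)`) or of `Far` (otherwise) satisfy the condition of the shell estimate.
-/

namespace Vale.Agent.P100.Weighted

open Thin (lowSum)

variable {n : ℕ} {σ τ p q : ℝ}

theorem near_weights {r : ℝ} (h1 : 1 ≤ r) (h2 : r ≤ 27 / 2) :
    2 * r ^ 3 * (1 + r ^ 2) - Thin.pD r ≤ 28 / 15 * (1 + r) * (1 + r ^ 2) ^ 2 := by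
  unfold Thin.pD
  have a := mul_nonneg (sub_nonneg.2 h1) (sub_nonneg.2 h2)
  have hr : 0 ≤ r := by linarith
  nlinarith [mul_nonneg a (pow_nonneg hr 3), mul_nonneg a (pow_nonneg hr 2), mul_nonneg a hr, a,
    pow_nonneg hr 2, pow_nonneg hr 3, pow_nonneg hr 4,
    mul_nonneg (sub_nonneg.2 h2) (pow_nonneg hr 4),
    mul_nonneg (sub_nonneg.2 h1) (pow_nonneg hr 2)]

theorem no_solution_ordered_thin (hn : 5 ≤ n) (hq : 0 < q) (hqp : q ≤ p) (hpq : 1 < p * q)
    (hsub : (n : ℝ) - 2 < ((n : ℝ) + σ) / (p + 1) + ((n : ℝ) + τ) / (q + 1))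
    (hreg : lowSum n * (p * q - 1) ≤ 2 * (p + q + 2)) :
    ¬ ∃ u v : (Fin n → ℝ) → ℝ, IsSolW σ τ p q u v := by
  rcases le_or_gt (15 / 14 * ((n : ℝ) - 2) * (p * q - 1)) (2 * (p + q + 2)) with hr | hbig
  · exact no_solution_ordered hn hq hqp hpq hsub hr
  have hn6 : 6 ≤ n := by
    rcases Nat.eq_or_lt_of_le hn with h | h
    · subst h
      norm_num [lowSum] at hreg hbig
      linarith
    · omega
  rintro ⟨u, v, hsol⟩
  have hN : (6 : ℝ) ≤ n := by exact_mod_cast hn6
  have hp : 0 < p := by linarith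
  have hN2 : (0 : ℝ) < (n : ℝ) - 2 := by linarith
  have hd : 0 < p * q - 1 := by linarith
  have hL : (n : ℝ) - 2 < lowSum n := by
    have : (0 : ℝ) < 3 * n / (10 * (n + 2)) := by positivity
    unfold lowSum; linarith
  set r := (p + 1) / (q + 1) with hr
  have hr1 : 1 ≤ r := (one_le_div (by linarith)).2 (by linarith)
  have hrq : r * (q + 1) = p + 1 := div_mul_cancel₀ _ (by linarith)
  have bnd : ∀ {p q : ℝ}, 0 < p → 0 < q → 1 < p * q →
      lowSum n * (p * q - 1) ≤ 2 * (p + q + 2) →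
      (p + 1) / (q + 1) ≤ p ∧
        p ≤ (p + 1) / (q + 1) + 2 * (1 + (p + 1) / (q + 1)) / lowSum n := by
    intro p q hp hq hpq hreg
    refine ⟨(div_le_iff₀ (by linarith)).2 (by linarith), ?_⟩
    rw [← sub_le_iff_le_add', le_div_iff₀ (by linarith : (0 : ℝ) < lowSum n),
      show p - (p + 1) / (q + 1) = (p * q - 1) / (q + 1) by field_simp; ring,
      div_mul_eq_mul_div, div_le_iff₀ (by linarith)]
    have : 2 * (1 + (p + 1) / (q + 1)) * (q + 1) = 2 * (p + q + 2) := by field_simp; ring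
    linarith
  obtain ⟨hp1, hp2⟩ := bnd hp hq hpq hreg
  obtain ⟨hq1, hq2⟩ := bnd hq hp (by rwa [mul_comm]) (by rw [mul_comm q p]; linarith)
  rw [← inv_div (p + 1) (q + 1), ← hr] at hq1 hq2
  have hl0 : (0 : ℝ) ≤ 1 - 2 / ((n : ℝ) - 2) := by
    rw [sub_nonneg, div_le_one hN2]; linarith
  have fin : ∀ A B δ : ℝ, ∀ c : Fin 14 → ℝ, 1 - 2 / ((n : ℝ) - 2) ≤ A → A ≤ 1 →
      1 - 2 / ((n : ℝ) - 2) ≤ B → B ≤ 1 → 0 < δ → IsCert n p q A B δ c →
      (r * (1 - A) + (1 - B)) * (q + 1) ≤ p * q - 1 → False := fun A B δ c hA hA' hB hB' hδ hc hγ =>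
    no_solution_of_certW (by omega) hsol hp hq hpq (hl0.trans hA) hA' (hl0.trans hB) hB'
      (by rw [← hrq]; linarith) hsub hδ hc
  rcases le_total r (27 / 2) with hr2 | hr2
  · obtain ⟨δ, c, hδ, hc⟩ := Thin.exists_cert hn hr1 hp1 hp2 hq1 hq2
    obtain ⟨⟨hA, hA'⟩, hB, hB'⟩ := Thin.weight_bounds (n := (n : ℝ)) (by linarith) hr1
    refine fin _ _ δ c hA hA' hB hB' hδ hc ?_
    have hW := Thin.pW_pos (n := (n : ℝ)) (by linarith) r
    have h1 : r * (1 - Thin.pA n r / Thin.pW n r) + (1 - Thin.pB n r / Thin.pW n r) ≤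
        28 / 15 * (1 + r) / ((n : ℝ) - 2) := by
      rw [one_sub_div hW.ne', one_sub_div hW.ne', mul_div_assoc', ← add_div,
        div_le_div_iff₀ hW hN2]
      have h0 := mul_le_mul_of_nonneg_left (near_weights hr1 hr2) (sq_nonneg ((n : ℝ) - 2))
      have h2 : 0 ≤ ((n : ℝ) - 2) * r * ((r ^ 2 - r) * (1 + r ^ 2)) :=
        mul_nonneg (mul_nonneg hN2.le (by linarith))
          (mul_nonneg (by nlinarith) (by positivity))
      simp only [Thin.pA, Thin.pB, Thin.pW]
      linarith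
    refine (mul_le_mul_of_nonneg_right h1 (by linarith)).trans ?_
    rw [div_mul_eq_mul_div, div_le_iff₀ hN2]
    nlinarith
  · obtain ⟨δ, c, hδ, hc⟩ := Far.exists_cert hn6 hr2 hp1 hp2 hq1 hq2
    obtain ⟨⟨hA, hA'⟩, hB, hB'⟩ := Far.weight_bounds hN hr2
    rcases le_total ((r * (1 - Far.pA n r / Far.pW n r) + (1 - Far.pB n r / Far.pW n r)) * (q + 1))
      (p * q - 1) with hγ | hγ
    · exact fin _ _ δ c hA hA' hB hB' hδ hc hγ
    -- otherwise the exponents are in the range of `Large`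
    have hγ' : p * q - 1 ≤
        (4 * ((n : ℝ) - 2) + 7) / (((n : ℝ) - 2) * (2 * ((n : ℝ) - 2) + 4)) * (p + 1) :=
      hγ.trans ((mul_le_mul_of_nonneg_right (Far.weights_le hn6 hr2) (by linarith)).trans_eq
        (by rw [← hrq]; ring))
    set g := 1 / ((n : ℝ) - 2) with hg
    set w := (q + 1) / (p + q + 2) with hw
    set h := (p * q - 1) / (p + q + 2) with hh
    have hs : 0 < p + q + 2 := by linarith
    have hw1 : w ≤ 1 / 2 := by rw [hw, div_le_iff₀ hs]; linarith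
    have hw' : 1 - w = (p + 1) / (p + q + 2) := by rw [hw, one_sub_div hs.ne']; ring
    have hl : h ≤ (1 - w) * g * (4 + 7 * g) / 2 / (1 + 2 * g) := by
      have e : (1 - w) * g * (4 + 7 * g) / 2 / (1 + 2 * g) =
          (4 * ((n : ℝ) - 2) + 7) / (((n : ℝ) - 2) * (2 * ((n : ℝ) - 2) + 4)) * (p + 1) /
            (p + q + 2) := by
        rw [hw', hg]; field_simp; ring
      rw [e, hh]
      exact div_le_div_of_nonneg_right hγ' hs.le
    obtain ⟨k, δ', c', hk0, hk, hk1, hδ', hc'⟩ :=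
      Large.exists_cert hn (w := w) (h := h) (div_pos (by linarith) hs) hw1 hg (div_pos hd hs) hl
        (p := p) (q := q) (by simp only [w, h]; field_simp; ring)
        (by
          simp only [w, h]
          rw [one_sub_div hs.ne', ← add_div, div_div_div_cancel_right₀ hs.ne',
            eq_div_iff (by linarith)]
          ring)
    rw [hw'] at hk
    simp only [h] at hk
    rw [mul_div_assoc', div_le_div_iff_of_pos_right hs] at hk
    refine no_solution_of_certW (by omega) hsol hp hq hpq (by linarith) (by linarith)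
      zero_le_one le_rfl ?_ hsub hδ' hc'
    linarith

/-- **Nonexistence for the weighted system above `n - 2 + 3n / (10 (n + 2))`.** -/
theorem no_solution_thin (hn : 5 ≤ n) (hp : 0 < p) (hq : 0 < q) (hpq : 1 < p * q)
    (hsub : (n : ℝ) - 2 < ((n : ℝ) + σ) / (p + 1) + ((n : ℝ) + τ) / (q + 1))
    (hreg : lowSum n * (p * q - 1) ≤ 2 * (p + q + 2)) :
    ¬ ∃ u v : (Fin n → ℝ) → ℝ, IsSolW σ τ p q u v := by
  rcases le_total q p with h | h
  · exact no_solution_ordered_thin hn hq h hpq hsub hreg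
  · rintro ⟨u, v, huv⟩
    exact no_solution_ordered_thin hn hp h (by rwa [mul_comm]) (by linarith)
      (by rw [mul_comm q p]; linarith) ⟨v, u, huv.swap⟩

/-- Weights below a bound of order `1 / n` put every subcritical pair into that region. -/
theorem region_of_small_weights (hn : 5 ≤ n) (hp : 0 < p) (hq : 0 < q) {d : ℝ}
    (hd : 3 * n / (5 * (n + 2)) ≤ d * lowSum n) (hσ : σ ≤ -d) (hτ : τ ≤ -d)
    (hsub : (n : ℝ) - 2 < ((n : ℝ) + σ) / (p + 1) + ((n : ℝ) + τ) / (q + 1)) :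
    lowSum n * (p * q - 1) ≤ 2 * (p + q + 2) := by
  have hN : (5 : ℝ) ≤ n := by exact_mod_cast hn
  rw [div_add_div _ _ (by linarith) (by linarith), lt_div_iff₀ (by positivity)] at hsub
  have hL : (n : ℝ) - 2 < lowSum n := by
    have : (0 : ℝ) < 3 * n / (10 * (n + 2)) := by positivity
    unfold lowSum; linarith
  have e : lowSum n - ((n : ℝ) - 2) = 3 * n / (5 * (n + 2)) / 2 := by
    simp only [lowSum]; field_simp; ring
  have h1 : ((n : ℝ) - 2) * (p * q - 1) ≤ (2 - d) * (p + q + 2) := by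
    nlinarith [mul_le_mul_of_nonneg_right hσ (by linarith : (0 : ℝ) ≤ q + 1),
      mul_le_mul_of_nonneg_right hτ (by linarith : (0 : ℝ) ≤ p + 1)]
  have h2 := mul_le_mul_of_nonneg_left h1 (by linarith : (0 : ℝ) ≤ lowSum n)
  have h3 : 0 ≤ (d * lowSum n - 2 * (lowSum n - ((n : ℝ) - 2))) * (p + q + 2) :=
    mul_nonneg (by rw [e]; linarith) (by linarith)
  refine le_of_mul_le_mul_left ?_ (by linarith : (0 : ℝ) < (n : ℝ) - 2)
  linarith

end Vale.Agent.P100.Weighted
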